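import Vale.Agent.P352X.R.BB.Spec
import Vale.Agent.P352Z.P352X.Spec

open Vale.Agent.P352G

/-!
# P352X, row BB: vocabulary and sub-rows (proof notes: notes/P352/bb.md)
-/

set_option linter.all false

open MeasureTheory Filter Topology
open scoped SchwartzMap ComplexConjugate ENNReal ContDiff

namespace Vale.Agent.P352X.BX

open Vale.Agent.P352 Vale.Agent.P352.GF Vale.Agent.P352.BW Vale.Agent.P352.H246
open Vale.Agent.P352.H496 Vale.Agent.P352.H755 Vale.Agent.P352.H15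
open Vale.Agent.P132 (ModData jconj)
open UniformSpace (Completion)
open Complex (I)

noncomputable section

/-! ## functions -/

variable {D : Type*} [NormedAddCommGroup D] [InnerProductSpace ℂ D] [GrD D] (c : CtxZ D)

/-! ## vectors -/

/-- `T(h, k)(g φ) Ω` -/
def TPZ (h k : V) (g : P3 → ℝ) (φ : ℝ → ℝ) : Completion D := c.Tv (hk h k (pr g φ))
/-- `T(h, ξ)(g φ) Ω` for the boost field `ξ = al a - be b` -/
def TxZ (h : V) (g : P3 → ℝ) (φ : ℝ → ℝ) : Completion D :=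
  TPZ c h va (ap 1 g) φ - TPZ c h vb g (tm φ)
/-- the charge of the boost on the surface below the plane -/
def GGZ (χ : ℝ → ℝ) (R L ε : ℝ) : Completion D :=
  -TxZ c va (slab χ R L) (dlt ε (deriv ps)) - TxZ c vb (face R L) (edge R ε)
/-- averages along `b` -/
def RbZ (ρ : ℝ → ℝ) (v : Completion D) : Completion D := ∫ u, (ρ u : ℂ) • Pb c.Q u v
/-- `v` is in the form domain of `P_b`, with the bound `N` -/
def QbZ (v : Completion D) (N : ℝ) : Prop := ‖v‖ ≤ N ∧ c.qb v ≤ ENNReal.ofReal (N ^ 2)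
/-- smooth in norm under the boosts and the translations along `b` -/
def SmZ (X : Completion D →L[ℂ] Completion D) : Prop :=
  ContDiff ℝ ∞ fun q : ℝ × ℝ => Bo c.Q q.1 * Pb c.Q q.2 * X * Pb c.Q (-q.2) * Bo c.Q (-q.1)
/-- the domain conditions for `i [B, K] = K` -/
def RegZ (φ : Completion D) : Prop := Dm (Bo c.Q) φ ∧ Dm c.SK φ ∧ Dm c.SK (gen (Bo c.Q) φ) ∧
  Gn (Bo c.Q) (gen c.SK φ) (gen c.SK (gen (Bo c.Q) φ) - I • gen c.SK φ)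
/-- `K T(f) - 2 M_i T(x_i f) + P T(|x|^2 f)`: covariant under the transverse translations -/
def KtZ (h k : V) (f : Fn) : Completion D :=
  gen c.SK (c.Tv (hk h k f)) -
    (2 : ℂ) • ∑ i, gen (Mi c.Q i) (c.Tv (hk h k fun z => (tx z i : ℝ) * f z)) +
    gen (Pa c.Q) (c.Tv (hk h k fun z => (d2 (tx z) (tx z) : ℝ) * f z))
/-- the data of the row -/
structure DatZ (u0 d0 : ℝ) (y1 : V) (r1 : ℝ) (y2 : V) (r2 : ℝ)
    (X X' : Completion D →L[ℂ] Completion D) : Prop where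
  hd : 0 < d0
  h1 : 0 < r1
  h2 : 0 < r2
  s1 : dc y1 r1 ⊆ {z | be z < -u0 ∧ d0 < al z}
  s2 : dc y2 r2 ⊆ {z | be z < -u0 ∧ d0 < al z}
  m1 : X ∈ c.N (dc y1 r1)
  m2 : X' ∈ c.N (dc y2 r2)
  e1 : Ev X
  e2 : Ev X'

/-! ## the sub-rows -/

/-- BB.l1: averages along `b` of thin slabs -/
structure L1Z : Prop where
  l1 : ∀ h k ρ g, Tst ρ → Tst g → ∃ C : ℝ, ∀ φ, Tst φ → ‖RbZ c ρ (TPZ c h k g φ)‖ ≤ C * ∫ t, |φ t|
  del : ∀ h k ρ g φ, Tst ρ → Tst g → Tst φ →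
    Tendsto (fun s => RbZ c ρ (TPZ c h k g (dlt s φ))) (𝓝[>] 0)
      (𝓝 (((∫ t, φ t : ℝ) : ℂ) • TPZ c h k g ρ))

/-- BB.flux: thin fluxes against the form domain of `P_b` -/
structure FLUXZ : Prop where
  tr : ∀ i g φ, Tst g → Tst φ → ∃ C : ℝ, ∀ s ∈ Set.Ioc (0 : ℝ) 1, ∀ v N, QbZ c v N →
    ‖inner ℂ (TxZ c (ex i) g (dil s φ)) v‖ ≤ C * Real.sqrt s * N
  bd : ∀ g φ, Tst g → Tst φ → ∃ C : ℝ, ∀ s ∈ Set.Ioc (0 : ℝ) 1, ∀ v N, QbZ c v N →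
    ‖inner ℂ (TxZ c vb g (dil s φ)) v‖ ≤ C * N
  lim : ∀ g φ v N, Tst g → Tst φ → QbZ c v N →
    Tendsto (fun s => inner ℂ (TxZ c vb g (dil s φ)) v) (𝓝[>] 0) (𝓝 0)

/-- BB.low: small light cone momenta -/
def LOWZ : Prop := ∃ (m : ℕ) (C : ℝ), 0 ≤ C ∧ ∀ h k (f : Sch) (σ : ℝ), 0 < σ →
  ‖c.bt.P {p | al p < σ} (c.Tv (hk h k (ev f)))‖ ≤ C * Real.sqrt σ * ‖h‖ * ‖k‖ * sn m f ∧
  ‖c.bt.P {p | be p < σ} (c.Tv (hk h k (ev f)))‖ ≤ C * Real.sqrt σ * ‖h‖ * ‖k‖ * sn m f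

/-- BB.rate: small `p_b` for `K T(f) Ω` -/
def RATEZ : Prop := ∀ b1 b2 : ℝ, b2 < 0 → ∃ (m : ℕ) (C : ℝ), 0 ≤ C ∧ ∀ h k (f : Sch) (t : ℝ),
  tsupport f ⊆ {z | b1 ≤ be z ∧ be z ≤ b2} → 0 < t → t ≤ 1 →
  ‖c.bt.P {p | al p < t ^ 20} (gen c.SK (c.Tv (hk h k (ev f))))‖ ≤ C * t * ‖h‖ * ‖k‖ * sn m f

/-- BB.kt: the covariant part of `K` on thin slabs -/
def KTZ : Prop := ∀ ρ g φ, Tst ρ → Tst g → Tst φ → tsupport φ ⊆ Set.Iio 0 →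
  ∃ C : ℝ, ∀ t ∈ Set.Ioc (0 : ℝ) 1,
    ‖RbZ c ρ (KtZ c va va (pr g (dil (t ^ 22) φ)))‖ ≤ C * t * t ^ 22 ∧
    ‖RbZ c ρ (KtZ c va vb (pr g (dil (t ^ 22) φ)))‖ ≤ C * t ∧
    ‖RbZ c ρ (KtZ c vb va (pr g (dil (t ^ 22) φ)))‖ ≤ C * t ∧
    t ^ 22 * ‖RbZ c ρ (KtZ c vb vb (pr g (dil (t ^ 22) φ)))‖ ≤ C * t

/-- BB.ks: `K` on thin slabs -/
structure KSZ : Prop where
  face : ∀ ρ g φ, Tst ρ → Tst g → Tst φ → tsupport φ ⊆ Set.Iio 0 →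
    ∃ C : ℝ, ∀ t ∈ Set.Ioc (0 : ℝ) 1, ‖RbZ c ρ (gen c.SK (TxZ c vb g (dil (t ^ 22) φ)))‖ ≤ C * t
  slab : ∀ ρ g φ, Tst ρ → Tst g → Tst φ → tsupport φ ⊆ Set.Iio 0 →
    Tendsto (fun t : ℝ => RbZ c ρ (gen c.SK (TxZ c va g (dlt (t ^ 22) φ)))) (𝓝[>] 0)
      (𝓝 (((∫ t, φ t : ℝ) : ℂ) • I • TPZ c va va (x2 (da (ap 1 g))) ρ))

/-- BB.half: the Ward identity of the boost on the surface below the plane -/
def HALFZ : Prop := ∀ (d d1 e R L ε : ℝ) χ y r X k, 0 < d → d / 2 < d1 → d ≤ R → 2 * R ≤ L →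
  0 < ε → 2 * ε ≤ e → e ≤ R → Stp d χ → 0 < r → X ∈ c.N (dc y r) → Ev X →
  closure (dc y r) ⊆ Box d e R → Gn (Bo c.Q) (X c.Om) k →
  Pr (c.N (Wdg va vb (-(d1 • va)))) c.Om (k + X (GGZ c χ R L ε)) (star X (GGZ c χ R L ε))

/-- BB.mi: the master identity -/
def MIZ : Prop := ∀ (d1 r : ℝ) (X X' : Completion D →L[ℂ] Completion D) (G G' : Completion D),
  0 ≤ d1 → 0 < r → X ∈ c.N (Rc r (d1 • va)) → X' ∈ c.N (Rc r (d1 • va)) → Dm c.SK G →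
  Dm c.SK G' →
  RegZ c (X c.Om) → Dm (Bo c.Q) (star X' c.Om) → Dm c.SK (star X' c.Om) →
  Pr (c.N (Wdg va vb (-(d1 • va)))) c.Om (gen (Bo c.Q) (X c.Om) + X G) (star X G) →
  Pr (c.N (Wdg va vb (-(d1 • va)))) c.Om (gen (Bo c.Q) (star X' c.Om) + star X' G') (X' G') →
  inner ℂ (c.J (star X' c.Om)) (gen c.SK (X c.Om)) =
    I * inner ℂ (gen c.SK G) (jconj c.J X' (X c.Om)) +
    I * inner ℂ (gen c.SK G') (c.J (star X (c.J (star X' c.Om)))) -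
    I * inner ℂ (G - c.J G') (jconj c.J X' (gen c.SK (X c.Om))) +
    I * inner ℂ (star X (c.J (gen c.SK (star X' c.Om)))) (G - c.J G')

/-- BB.dom: domains, uniformly under small translations along `b` -/
def DOMZ : Prop := ∀ (u0 u1 d0 d1 : ℝ) y r X, u1 < u0 → 0 ≤ d1 → d1 < d0 → 0 < r →
  dc y r ⊆ {z | be z < -u0 ∧ d0 < al z} → X ∈ c.N (dc y r) → SmZ c X →
  ∃ r' N : ℝ, 0 < r' ∧ (∀ u ∈ Set.Icc (-u1) u1,
    Pb c.Q (-u) * X * Pb c.Q u ∈ c.N (Rc r' (d1 • va)) ∧ RegZ c (Pb c.Q (-u) (X c.Om)) ∧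
    QbZ c (gen c.SK (Pb c.Q (-u) (X c.Om))) N) ∧
    ContinuousOn (fun u => gen c.SK (Pb c.Q (-u) (X c.Om))) (Set.Icc (-u1) u1)

/-- BB.lip: stability of the form domain of `P_b` -/
structure LIPZ : Prop where
  op : ∀ X, SmZ c X → ∃ C : ℝ, ∀ u v N, QbZ c v N → QbZ c ((Pb c.Q (-u) * X * Pb c.Q u) v) (C * N)
  j : ∃ C : ℝ, ∀ v N, QbZ c v N → QbZ c (c.J v) (C * N)

/-- BB.dec: the total surface, by conservation -/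
def DECZ : Prop := ∀ (d R : ℝ) χ, 0 < d → d ≤ R → Stp d χ →
  ∃ (Γ : ℝ → Completion D) (g1 : Fin 2 → P3 → ℝ) (φ0 γ : ℝ → ℝ), (∀ i, Tst (g1 i)) ∧ Tst φ0 ∧
    Tst γ ∧ (∀ ε, 0 < ε → inner ℂ c.Om (Γ ε) = 0) ∧
    (∀ n, ep n ≤ R → Γ (ep (n + 1)) - Γ (ep n) = ∑ i, TxZ c (ex i) (g1 i) (dil (ep n) φ0)) ∧
    ∀ L, R ≤ L → ∃ (g2 : P3 → ℝ) (g3 : Fin 2 → P3 → ℝ), Tst g2 ∧ (∀ i, Tst (g3 i)) ∧
      ∀ ε, 0 < ε → ε ≤ R → GGZ c χ R L ε - c.J (GGZ c (opp χ) R L ε) =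
        Usc c.Q L 1 (Γ ε) + TxZ c vb g2 (dil ε γ) + ∑ i, TxZ c (ex i) (g3 i) (dil ε γ)

/-- BB.gap: the gap commutes with `X` and `Y` -/
def GAPZ : Prop := ∀ u0 d0 y1 r1 y2 r2 X X' g ρ, DatZ c u0 d0 y1 r1 y2 r2 X X' → Tst g →
  tsupport g ⊆ {y | |y.1| < d0} → Tst ρ → tsupport ρ ⊆ Set.Ioo (-u0) u0 →
  inner ℂ (TPZ c va va g ρ) (jconj c.J X' (X c.Om)) =
    inner ℂ (star X (star (jconj c.J X') c.Om)) (TPZ c va va g ρ)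

/-- BB.far: the limit does not depend on the cutoff -/
def FARZ : Prop := ∀ u0 d0 y1 r1 y2 r2 X X' χ κ κ0 ρ (y : R2), DatZ c u0 d0 y1 r1 y2 r2 X X' →
  Stp d0 χ → Cut κ → Cut κ0 → Tst ρ → tsupport ρ ⊆ Set.Ioo (-u0) u0 →
  Tendsto (fun L => c.om2 (jconj c.J X' (X c.Om)) (star X (star (jconj c.J X') c.Om)) χ
    (hk va va (pr (fun q => d2 q.2 q.2 * (kL κ L (q.1, q.2 + y) - kL κ0 L q)) ρ))) atTop (𝓝 0)

/-- BB.main: the main terms -/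
def MAINZ : Prop := ∀ (d R : ℝ) χ ρ w, 0 < d → d ≤ R → Stp d χ → Tst ρ → ∀ η > 0,
  ∀ᶠ L in atTop, ∀ᶠ n in atTop, ‖I * inner ℂ (RbZ c ρ (gen c.SK (GGZ c χ R L (ep n)))) w -
    inner ℂ (TPZ c va va (x2 (da (ap 1 (slab χ R L)))) ρ) w‖ ≤ η

/-- BB.cross: the cross terms -/
def CROSSZ : Prop := ∀ (d R u1 N : ℝ) χ ρ (v : ℝ → Completion D), 0 < d → d ≤ R → Stp d χ →
  Tst ρ → tsupport ρ ⊆ Set.Icc (-u1) u1 → ContinuousOn v (Set.Icc (-u1) u1) →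
  (∀ u ∈ Set.Icc (-u1) u1, QbZ c (v u) N) → ∀ η > 0, ∀ᶠ L in atTop, ∀ᶠ n in atTop,
    ‖∫ u, (ρ u : ℂ) * inner ℂ (GGZ c χ R L (ep n) - c.J (GGZ c (opp χ) R L (ep n))) (v u)‖ ≤ η

/-- BB.end: the main terms and the form -/
def ENDZ : Prop := ∀ u0 d0 y1 r1 y2 r2 X X' χ ρ (R : ℝ), DatZ c u0 d0 y1 r1 y2 r2 X X' →
  Stp d0 χ → 0 < R → Tst ρ → tsupport ρ ⊆ Set.Ioo (-u0) u0 →
  Tendsto (fun L => inner ℂ (TPZ c va va (x2 (da (ap 1 (slab χ R L)))) ρ) (jconj c.J X' (X c.Om)) +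
    inner ℂ (TPZ c va va (x2 (da (ap 1 (slab (opp χ) R L)))) (ng ρ))
      (c.J (star X (star (jconj c.J X') c.Om))) -
    c.om2 (jconj c.J X' (X c.Om)) (star X (star (jconj c.J X') c.Om)) χ
      (hk va va (pr (fun q => d2 q.2 q.2 * kL (cut0 R) L q) ρ))) atTop (𝓝 0)

/-- BB.core: the row for `y = 0` and one cutoff -/
def COREZ : Prop := ∀ u0 d0 y1 r1 y2 r2 X X' χ ρ, DatZ c u0 d0 y1 r1 y2 r2 X X' → SmZ c X →
  SmZ c X' → Stp d0 χ → Tst ρ → tsupport ρ ⊆ Set.Ioo (-u0) u0 → ∃ κ0, Cut κ0 ∧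
  Tendsto (fun L => c.om2 (jconj c.J X' (X c.Om)) (star X (star (jconj c.J X') c.Om)) χ
      (hk va va (pr (fun q => d2 q.2 q.2 * kL κ0 L q) ρ))) atTop
    (𝓝 (∫ u, (ρ u : ℂ) * inner ℂ (star (jconj c.J X') c.Om) (gen (c.Ky (u • vb)) (X c.Om))))

/-- the sub-rows, with their dependencies -/
structure RowsZ : Prop where
  l1 : T3Z c → L1Z c
  flux : T3Z c → FLUXZ c
  low : T3Z c → LOWZ c
  rate : T3Z c → LOWZ c → RATEZ c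
  kt : T3Z c → LOWZ c → RATEZ c → KTZ c
  ks : T3Z c → L1Z c → KTZ c → KSZ c
  half : T3Z c → HALFZ c
  mi : T3Z c → MIZ c
  dom : T3Z c → DOMZ c
  lip : T3Z c → LIPZ c
  dec : T3Z c → DECZ c
  gap : T3Z c → GAPZ c
  far : T3Z c → FARZ c
  main : T3Z c → KSZ c → MAINZ c
  cross : T3Z c → FLUXZ c → DECZ c → CROSSZ c
  fin : T3Z c → GAPZ c → ENDZ c
  core : T3Z c → HALFZ c → MIZ c → DOMZ c → LIPZ c → MAINZ c → CROSSZ c → ENDZ c → COREZ c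
  tra : T3Z c → FARZ c → COREZ c → BBZ c

theorem RowsZ.bb {c : CtxZ D} (r : RowsZ c) (t : T3Z c) : BBZ c :=
  r.tra t (r.far t) (r.core t (r.half t) (r.mi t) (r.dom t) (r.lip t)
    (r.main t (r.ks t (r.l1 t) (r.kt t (r.low t) (r.rate t (r.low t)))))
    (r.cross t (r.flux t) (r.dec t)) (r.fin t (r.gap t)))

end

end Vale.Agent.P352X.BX
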