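import Vale.Agent.P352X.R.BB.Base
import Vale.Agent.P352Z.P352X.Api1C
import Vale.Agent.P352Z.P352X.R.BB.Spec
import Vale.Agent.P352Z.P352X.R.FAR
import Vale.Agent.P352Z.P352X.R.GRP.C

open Vale.Agent.P352G

/-!
# P352X, row BB: the calculus of the vectors `T(h, k)(f) Ω`
-/

set_option linter.all false

open MeasureTheory Filter Topology Set
open scoped SchwartzMap ComplexConjugate ENNReal ContDiff

namespace Vale.Agent.P352X.BX

open Vale.Agent.P352 Vale.Agent.P352.GF Vale.Agent.P352.BW Vale.Agent.P352.H246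
open Vale.Agent.P352.H496 Vale.Agent.P352.H755 Vale.Agent.P352.H15 Vale.Agent.P352X.Ap
open Vale.Agent.P132 (ModData jconj)
open UniformSpace (Completion)
open Complex (I)

noncomputable section

variable {D : Type*} [NormedAddCommGroup D] [InnerProductSpace ℂ D] [GrD D] {c : CtxZ D}
  {h h' k k' y : V} {f f' : Fn} {g g' : P3 → ℝ} {φ φ' ρ ρ' χ : ℝ → ℝ} {r s t d R L ε u : ℝ}
  {v w : Completion D} {X : Completion D →L[ℂ] Completion D}

/-! ## linearity -/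

variable (c) in
/-- `f ↦ T(h, k)(f) Ω` -/
def TLZ (h k : V) : Sch →L[ℂ] Completion D :=
  ∑ m, ∑ n, ((eta m * h m * (eta n * k n) : ℝ) : ℂ) •
    (Completion.toComplL ∘L Grp.fC (Grp.T_fld c.hT m n) c.Q.vac)

theorem TL_applyZ (h k : V) (F : Sch) : TLZ c h k F = c.Tv (hk h k (ev F)) := by
  rw [Far.Tv_hkZ c h k (test_ev F)]
  simp only [TLZ, ContinuousLinearMap.sum_apply, ContinuousLinearMap.smul_apply]
  rfl

theorem Tv_schZ (hf : IsTest f) (h k : V) : c.Tv (hk h k f) = TLZ c h k (sch f) := by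
  rw [TL_applyZ, ev_sch hf]

theorem Tv_addZ (hf : IsTest f) (hf' : IsTest f') (h k : V) :
    c.Tv (hk h k fun z => f z + f' z) = c.Tv (hk h k f) + c.Tv (hk h k f') := by
  rw [Tv_schZ hf, Tv_schZ hf', Tv_schZ (sw_add hf hf'), Ap.sch_add hf hf', map_add]

theorem Tv_cmulZ (a : ℂ) (hf : IsTest f) (h k : V) :
    c.Tv (hk h k fun z => a * f z) = a • c.Tv (hk h k f) := by
  rw [Tv_schZ hf, Tv_schZ (sw_cmul a hf), Ap.sch_cmul a hf, map_smul]

theorem Tv_zeroZ (h k : V) : c.Tv (hk h k fun _ => 0) = 0 := by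
  rw [Tv_schZ sw_zero, Ap.sch_zero, map_zero]

theorem Tv_sumZ {ι : Type*} {S : Finset ι} {F : ι → Fn} (hF : ∀ i ∈ S, IsTest (F i)) (h k : V) :
    c.Tv (hk h k fun z => ∑ i ∈ S, F i z) = ∑ i ∈ S, c.Tv (hk h k (F i)) := by
  rw [Tv_schZ (sw_sum hF), Ap.sch_sum hF, map_sum]
  exact Finset.sum_congr rfl fun i hi => (Tv_schZ (hF i hi) h k).symm

theorem Tv_symmZ (hf : IsTest f) (h k : V) : c.Tv (hk h k f) = c.Tv (hk k h f) := by
  rw [Far.Tv_hkZ c h k hf, Far.Tv_hkZ c k h hf, Finset.sum_comm]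
  refine Finset.sum_congr rfl fun m _ => Finset.sum_congr rfl fun n _ => ?_
  rw [c.hT.symm n m f _ hf, mul_comm]

theorem Tv_smul_lZ (hf : IsTest f) (t : ℝ) (h k : V) :
    c.Tv (hk (t • h) k f) = (t : ℂ) • c.Tv (hk h k f) := by
  simp only [Far.Tv_hkZ c _ _ hf, Finset.smul_sum, smul_smul, Pi.smul_apply, smul_eq_mul]
  refine Finset.sum_congr rfl fun m _ => Finset.sum_congr rfl fun n _ => ?_
  congr 1
  push_cast
  ring

theorem Tv_smul_rZ (hf : IsTest f) (t : ℝ) (h k : V) :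
    c.Tv (hk h (t • k) f) = (t : ℂ) • c.Tv (hk h k f) := by
  rw [Tv_symmZ hf, Tv_smul_lZ hf, Tv_symmZ hf k]

theorem Tv_neg_lZ (hf : IsTest f) (h k : V) : c.Tv (hk (-h) k f) = -c.Tv (hk h k f) := by
  simpa using Tv_smul_lZ (c := c) hf (-1) h k

theorem Tv_neg_rZ (hf : IsTest f) (h k : V) : c.Tv (hk h (-k) f) = -c.Tv (hk h k f) := by
  simpa using Tv_smul_rZ (c := c) hf (-1) h k

theorem Tv_zero_lZ (hf : IsTest f) (k : V) : c.Tv (hk 0 k f) = 0 := by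
  simpa using Tv_smul_lZ (c := c) hf 0 0 k

theorem Tv_zero_rZ (hf : IsTest f) (h : V) : c.Tv (hk h 0 f) = 0 := by
  rw [Tv_symmZ hf, Tv_zero_lZ hf]

/-! ## product functions -/

theorem TP_schZ (hg : Tst g) (hφ : Tst φ) (h k : V) : TPZ c h k g φ = TLZ c h k (sch (pr g φ)) :=
  Tv_schZ (test_pr hg hφ) h k

theorem TP_add_gZ (hg : Tst g) (hg' : Tst g') (hφ : Tst φ) (h k : V) :
    TPZ c h k (fun y => g y + g' y) φ = TPZ c h k g φ + TPZ c h k g' φ := by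
  rw [TPZ, TPZ, TPZ, ← Tv_addZ (test_pr hg hφ) (test_pr hg' hφ)]
  congr 2
  funext z
  simp [pr, add_mul]

theorem TP_add_pZ (hg : Tst g) (hφ : Tst φ) (hφ' : Tst φ') (h k : V) :
    TPZ c h k g (fun t => φ t + φ' t) = TPZ c h k g φ + TPZ c h k g φ' := by
  rw [TPZ, TPZ, TPZ, ← Tv_addZ (test_pr hg hφ) (test_pr hg hφ')]
  congr 2
  funext z
  simp [pr, mul_add]

theorem TP_mul_gZ (a : ℝ) (hg : Tst g) (hφ : Tst φ) (h k : V) :
    TPZ c h k (fun y => a * g y) φ = (a : ℂ) • TPZ c h k g φ := by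
  rw [TPZ, TPZ, ← Tv_cmulZ a (test_pr hg hφ)]
  congr 2
  funext z
  simp [pr, mul_assoc]

theorem TP_mul_pZ (a : ℝ) (hg : Tst g) (hφ : Tst φ) (h k : V) :
    TPZ c h k g (fun t => a * φ t) = (a : ℂ) • TPZ c h k g φ := by
  rw [TPZ, TPZ, ← Tv_cmulZ a (test_pr hg hφ)]
  congr 2
  funext z
  simp [pr, mul_left_comm]

theorem TP_neg_gZ (hg : Tst g) (hφ : Tst φ) (h k : V) :
    TPZ c h k (fun y => -g y) φ = -TPZ c h k g φ := by
  simpa using TP_mul_gZ (c := c) (-1) hg hφ h k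

theorem TP_sub_gZ (hg : Tst g) (hg' : Tst g') (hφ : Tst φ) (h k : V) :
    TPZ c h k (fun y => g y - g' y) φ = TPZ c h k g φ - TPZ c h k g' φ := by
  simp only [sub_eq_add_neg]
  rw [TP_add_gZ hg (cs_neg hg') hφ, TP_neg_gZ hg' hφ]

theorem TP_sum_gZ {ι : Type*} {S : Finset ι} {G : ι → P3 → ℝ} (hG : ∀ i ∈ S, Tst (G i)) (hφ : Tst φ)
    (h k : V) : TPZ c h k (fun y => ∑ i ∈ S, G i y) φ = ∑ i ∈ S, TPZ c h k (G i) φ := by
  simp only [TPZ]
  rw [← Tv_sumZ fun i hi => test_pr (hG i hi) hφ]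
  congr 2
  funext z
  simp [pr, Finset.sum_mul]

theorem Tx_add_pZ (hg : Tst g) (hφ : Tst φ) (hφ' : Tst φ') (h : V) :
    TxZ c h g (fun t => φ t + φ' t) = TxZ c h g φ + TxZ c h g φ' := by
  have e : tm (fun t => φ t + φ' t) = fun t => tm φ t + tm φ' t := by
    funext y
    simp [tm, mul_add]
  rw [TxZ, TxZ, TxZ, e, TP_add_pZ (tst_ap 1 hg) hφ hφ', TP_add_pZ hg (tst_tm hφ) (tst_tm hφ')]
  abel

theorem Tx_mul_gZ (a : ℝ) (hg : Tst g) (hφ : Tst φ) (h : V) :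
    TxZ c h (fun y => a * g y) φ = (a : ℂ) • TxZ c h g φ := by
  have e : ap 1 (fun y => a * g y) = fun y => a * ap 1 g y := by
    funext y
    simp [ap, mul_left_comm]
  rw [TxZ, TxZ, e, TP_mul_gZ a (tst_ap 1 hg) hφ, TP_mul_gZ a hg (tst_tm hφ), smul_sub]

/-! ## covariance -/

section grp

variable (G : GRPZ c)
include G

theorem perp_TPZ (hg : Tst g) (hφ : Tst φ) (h k : V) : inner ℂ c.Om (TPZ c h k g φ) = 0 :=
  Far.perp_TvZ G h k (test_pr hg hφ)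

theorem ug_TZ {Λ : Ix → V} (hs : 0 < s) (hL : IsLor Λ) (a h k : V) (hf : IsTest f) :
    Ug c.Q s Λ a (c.Tv (hk h k fun z => f (sim s Λ a z))) =
      c.Tv (hk (sim 1 Λ 0 h) (sim 1 Λ 0 k) f) := by
  rw [CtxZ.Tv, G.coe _ _ _ _ hs hL, G.ten _ _ _ _ _ _ _ hs hL hf, c.Q.U_vac _ _ _ hs hL]
  rfl

theorem ut_TZ (y h k : V) (hf : IsTest f) :
    Ut c.Q y (c.Tv (hk h k fun z => f (z + y))) = c.Tv (hk h k f) := by
  have := ug_TZ G one_pos H496.isLor_one y h k hf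
  simp only [sim_ut, add_zero] at this
  exact this

theorem ut_T'Z (y h k : V) (hf : IsTest f) :
    Ut c.Q y (c.Tv (hk h k f)) = c.Tv (hk h k fun z => f (z - y)) := by
  have := ut_TZ G y h k (test_tsl hf (-y))
  simpa only [add_neg_cancel_right, ← sub_eq_add_neg, add_sub_cancel_right] using this

theorem usc_TZ (hr : 0 < r) (hs : 0 < s) (h k : V) (hf : IsTest f) :
    ((r * s : ℝ) : ℂ) • Usc c.Q r s (c.Tv (hk h k fun z => f (scp r s z))) =
      c.Tv (hk (scp r s h) (scp r s k) f) := by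
  obtain ⟨hΛ, e⟩ := G.lsc r s hr hs
  have hq : 0 < Real.sqrt (r * s) := Real.sqrt_pos.2 (by positivity)
  have := ug_TZ G hq hΛ 0 h k hf
  simp only [e] at this
  rw [← e h, ← e k, sim_smul h, sim_smul k, Tv_smul_lZ hf, Tv_smul_rZ hf, smul_smul, ← this,
    ← Complex.ofReal_mul, Real.mul_self_sqrt (by positivity)]
  rfl

theorem usc_TPZ (hL : 0 < L) (hg : Tst g) (hφ : Tst φ) (h k : V) :
    (L : ℂ) • Usc c.Q L 1 (TPZ c h k g φ) = TPZ c (scp L 1 h) (scp L 1 k) (kL g L) φ := by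
  have := usc_TZ G hL one_pos h k (test_pr (tst_kL hg hL) hφ)
  rw [mul_one] at this
  rw [TPZ, TPZ, ← this]
  congr 4
  funext z
  rw [pr_kL hL, scp_scp _ (inv_pos.2 hL).le zero_le_one, inv_mul_cancel₀ hL.ne', mul_one, scp_one]

theorem usc_TxZ (hL : 0 < L) (hg : Tst g) (hφ : Tst φ) (h : V) :
    (L : ℂ) • Usc c.Q L 1 (TxZ c h g φ) = TxZ c (scp L 1 h) (kL g L) φ := by
  have e : ap 1 (kL g L) = fun y => L * kL (ap 1 g) L y := by
    funext y
    simp only [ap, kL, pow_one]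
    field_simp
  rw [TxZ, TxZ, map_sub, smul_sub, usc_TPZ G hL (tst_ap 1 hg) hφ, usc_TPZ G hL hg (tst_tm hφ), scp_va,
    scp_vb, one_smul, e, TP_mul_gZ L (tst_kL (tst_ap 1 hg) hL) hφ, TPZ,
    Tv_smul_rZ (test_pr (tst_kL (tst_ap 1 hg) hL) hφ)]
  rfl

theorem usc_Tx_bZ (hL : 0 < L) (hg : Tst g) (hφ : Tst φ) :
    Usc c.Q L 1 (TxZ c vb g φ) = TxZ c vb (fun y => L⁻¹ * kL g L y) φ := by
  have := usc_TxZ G hL hg hφ vb
  rw [scp_vb, one_smul] at this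
  rw [Tx_mul_gZ _ (tst_kL hg hL) hφ, ← this, smul_smul, ← Complex.ofReal_mul,
    inv_mul_cancel₀ hL.ne', Complex.ofReal_one, one_smul]

/-- the face is the image of a fixed face -/
theorem usc_faceZ (hR : 0 < R) (hL : 0 < L) (hφ : Tst φ) :
    TxZ c vb (face R L) φ = Usc c.Q L 1 (TxZ c vb (k3 (deriv kk) (kp R)) φ) :=
  (usc_Tx_bZ G hL (tst_face0 hR) hφ).symm

theorem usc_pbZ (hL : 0 < L) (u : ℝ) : Usc c.Q L 1 * Pb c.Q u = Pb c.Q u * Usc c.Q L 1 := by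
  rw [Pb, G.sc_ut _ _ _ hL one_pos]
  congr 2
  exact null_ext (by simp) (by simp) (by simp)

theorem usc_KZ (hL : 0 < L) (hv : Dm c.SK v) :
    Dm c.SK (Usc c.Q L 1 v) ∧ gen c.SK (Usc c.Q L 1 v) = Usc c.Q L 1 (gen c.SK v) :=
  hv.comm fun t => by rw [G.sc_S _ _ _ hL one_pos, div_one]

theorem usc_normZ (r s : ℝ) (v : Completion D) : ‖Usc c.Q r s v‖ = ‖v‖ := G.ug_norm _ _ _ v

theorem pb_pbZ (s t : ℝ) (v : Completion D) : Pb c.Q s (Pb c.Q t v) = Pb c.Q (s + t) v := by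
  rw [G.ugPb.add']
  rfl

theorem pb_omZ (u : ℝ) : Pb c.Q u c.Om = c.Om := G.vac _ _ _

theorem SmZ.star (hX : SmZ c X) : SmZ c (star X) := by
  have := (ContinuousLinearMap.contDiff (n := ∞) (starL' ℝ :
    (Completion D →L[ℂ] Completion D) ≃L[ℝ] _).toContinuousLinearMap).comp hX
  have e : (fun q : ℝ × ℝ => Bo c.Q q.1 * Pb c.Q q.2 * Star.star X * Pb c.Q (-q.2) * Bo c.Q (-q.1)) =
      ⇑(starL' ℝ : (Completion D →L[ℂ] Completion D) ≃L[ℝ] _).toContinuousLinearMap ∘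
        fun q : ℝ × ℝ => Bo c.Q q.1 * Pb c.Q q.2 * X * Pb c.Q (-q.2) * Bo c.Q (-q.1) := by
    funext q
    simp [star_mul, G.ugPb.star_eq, G.ugB.star_eq, mul_assoc]
  unfold SmZ
  rw [e]
  exact this

/-! ## averages along `b` -/

theorem int_RbZ (hρ : Tst ρ) (v : Completion D) : Integrable fun u => (ρ u : ℂ) • Pb c.Q u v :=
  G.ugPb.integrable_smul (cs_int (dc_cx hρ)) v

theorem Rb_addZ (hρ : Tst ρ) (v w : Completion D) : RbZ c ρ (v + w) = RbZ c ρ v + RbZ c ρ w := by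
  simp only [RbZ, map_add, smul_add]
  exact integral_add (int_RbZ G hρ v) (int_RbZ G hρ w)

omit G in
theorem Rb_smulZ (a : ℂ) (v : Completion D) : RbZ c ρ (a • v) = a • RbZ c ρ v := by
  simp only [RbZ, map_smul, smul_comm _ a]
  exact integral_smul _ _

omit G in
theorem Rb_negZ (v : Completion D) : RbZ c ρ (-v) = -RbZ c ρ v := by
  simpa using Rb_smulZ (c := c) (ρ := ρ) (-1) v

theorem Rb_subZ (hρ : Tst ρ) (v w : Completion D) : RbZ c ρ (v - w) = RbZ c ρ v - RbZ c ρ w := by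
  rw [sub_eq_add_neg, Rb_addZ G hρ, Rb_negZ, ← sub_eq_add_neg]

theorem Rb_normZ (ρ : ℝ → ℝ) (v : Completion D) : ‖RbZ c ρ v‖ ≤ (∫ u, |ρ u|) * ‖v‖ := by
  refine (norm_integral_le_integral_norm _).trans (le_of_eq ?_)
  simp only [norm_smul, G.ugPb.nrm, Complex.norm_real, Real.norm_eq_abs]
  exact integral_mul_const _ _

theorem Rb_commZ (hρ : Tst ρ) {A : Completion D →L[ℂ] Completion D}
    (hA : ∀ u, A * Pb c.Q u = Pb c.Q u * A) (v : Completion D) :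
    RbZ c ρ (A v) = A (RbZ c ρ v) := by
  rw [RbZ, RbZ, ← A.integral_comp_comm (int_RbZ G hρ v)]
  congr 1
  funext u
  rw [map_smul, ← ContinuousLinearMap.mul_apply, ← hA u, ContinuousLinearMap.mul_apply]

theorem Rb_uscZ (hρ : Tst ρ) (hL : 0 < L) (v : Completion D) :
    RbZ c ρ (Usc c.Q L 1 v) = Usc c.Q L 1 (RbZ c ρ v) := Rb_commZ G hρ (usc_pbZ G hL) v

theorem inner_RbZ (hρ : Tst ρ) (v w : Completion D) :
    inner ℂ (RbZ c ρ v) w = ∫ u, (ρ u : ℂ) * inner ℂ v (Pb c.Q (-u) w) := by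
  rw [← inner_conj_symm, RbZ, ← integral_inner (int_RbZ G hρ v), ← integral_conj]
  congr 1
  funext u
  rw [inner_smul_right, map_mul, Complex.conj_ofReal, inner_conj_symm, G.ugPb.adj', neg_neg]

theorem perp_RbZ (hρ : Tst ρ) (hv : inner ℂ c.Om v = 0) : inner ℂ c.Om (RbZ c ρ v) = 0 := by
  rw [← inner_conj_symm, inner_RbZ G hρ]
  simp [pb_omZ G, inner_eq_zero_symm.1 hv]

omit G in
theorem perp_KZ (hv : Dm c.SK v) : inner ℂ c.Om (gen c.SK v) = 0 := by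
  rw [c.ugK.symm (gn_of_fix c.K_vac) hv.gn, inner_zero_left]

end grp

/-! ## the modular conjugation -/

section jc

variable (j : JCZ c)
include j

theorem J_TZ (h k : V) (hf : IsTest f) :
    c.J (c.Tv (hk h k f)) = c.Tv (hk (jr h) (jr k) (bar fun z => f (jr z))) := by
  rw [Far.Tv_hkZ c h k hf, Far.Tv_hkZ c _ _ (test_bar (test_conf0 conf_jr hf))]
  simp only [map_sum, J_smul, j.one _ _ _ hf, smul_smul, jr_apply, Complex.conj_ofReal]
  refine Finset.sum_congr rfl fun m _ => Finset.sum_congr rfl fun n _ => ?_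
  congr 1
  push_cast
  ring

theorem J_TPZ (hg : Tst g) (hφ : Tst φ) (h k : V) :
    c.J (TPZ c h k g φ) = TPZ c (jr h) (jr k) (fl g) (ng φ) := by
  rw [TPZ, J_TZ j h k (test_pr hg hφ), TPZ, ← bar_pr (fl g)]
  congr 3
  funext z
  simp [pr, fl, ng, pl]

theorem J_TP_aaZ (hg : Tst g) (hφ : Tst φ) :
    c.J (TPZ c va va g φ) = TPZ c va va (fl g) (ng φ) := by
  have := test_pr (tst_fl hg) (tst_ng hφ)
  rw [J_TPZ j hg hφ, jr_va, TPZ, Tv_neg_lZ this, Tv_neg_rZ this, neg_neg, TPZ]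

theorem J_pbZ (u : ℝ) (v : Completion D) : c.J (Pb c.Q u v) = Pb c.Q (-u) (c.J v) := by
  rw [Pb, j.ut, Pb]
  congr 2
  exact null_ext (by simp) (by simp) (by simp)

theorem jconj_pbZ (G : GRPZ c) (u : ℝ) (X : Completion D →L[ℂ] Completion D) :
    jconj c.J (Pb c.Q u * X * Pb c.Q (-u)) = Pb c.Q (-u) * jconj c.J X * Pb c.Q u := by
  ext v
  simp [J_pbZ j]

end jc

theorem star_YZ (X : Completion D →L[ℂ] Completion D) :
    star (jconj c.J X) c.Om = c.J (star X c.Om) := by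
  rw [jconj_star c.J c.J_J, P132.jconj_apply, c.J_Om]

/-! ## the domain of `K` -/

section kd

variable (kd : KDZ c)
include kd

/-- test functions with compact support below the plane -/
theorem dm_TZ (hf : Dc f) (hs : tsupport f ⊆ {z | be z < 0}) (h k : V) :
    Dm c.SK (c.Tv (hk h k f)) := by
  rcases (tsupport f).eq_empty_or_nonempty with h0 | h0
  · have : f = fun _ => 0 := funext fun z => image_eq_zero_of_notMem_tsupport (by simp [h0])
    rw [this, Tv_zeroZ]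
    exact dm_zero
  obtain ⟨z1, -, h1⟩ := hf.2.isCompact.exists_isMinOn h0 cont_be.continuousOn
  obtain ⟨z2, m2, h2⟩ := hf.2.isCompact.exists_isMaxOn h0 cont_be.continuousOn
  obtain ⟨m, C, H⟩ := kd.slab (be z1) (be z2) (Or.inl (hs m2))
  have := (H h k (sch f) (by
    rw [Ap.tsupport_sch (dc_sw hf)]
    exact fun z hz => ⟨h1 hz, h2 hz⟩)).1
  rwa [ev_sch (dc_sw hf)] at this

theorem dm_TPZ (hg : Tst g) (hφ : Tst φ) (hs : tsupport φ ⊆ Iio 0) (h k : V) :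
    Dm c.SK (TPZ c h k g φ) :=
  dm_TZ kd (dc_pr hg hφ) (fun _ hz => hs (tsupport_pr g φ hz).2) h k

theorem dm_TxZ (hg : Tst g) (hφ : Tst φ) (hs : tsupport φ ⊆ Iio 0) (h : V) :
    Dm c.SK (TxZ c h g φ) :=
  (dm_TPZ kd (tst_ap 1 hg) hφ hs h va).sub
    (dm_TPZ kd hg (tst_tm hφ) ((tsupport_tm φ).trans hs) h vb)

theorem dm_GGZ (hχ : Stp d χ) (hR : 0 < R) (hL : 0 < L) (hε : 0 < ε) : Dm c.SK (GGZ c χ R L ε) :=
  (dm_TxZ kd (tst_slab hχ hR hL) (tst_dlt tst_dps hε.ne') (tsupport_dlt_neg tsupport_dps_neg hε)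
    va).neg.sub (dm_TxZ kd (tst_face hR hL) (tst_edge hR hε) (tsupport_edge hR hε) vb)

end kd

theorem QbZ.nonneg {N : ℝ} (h : QbZ c v N) : 0 ≤ N := (norm_nonneg _).trans h.1

end

end Vale.Agent.P352X.BX
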