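import Vale.Agent.P352X.R.BB.Cross
import Vale.Agent.P352Z.P352X.R.BAS
import Vale.Agent.P352Z.P352X.R.BB.Base

open Vale.Agent.P352G

/-!
# P352X, row BB.cross: the cross terms
-/

set_option linter.all false

open MeasureTheory Filter Topology Set
open scoped SchwartzMap ComplexConjugate ENNReal ContDiff

namespace Vale.Agent.P352X.BX

open Vale.Agent.P352 Vale.Agent.P352.GF Vale.Agent.P352.BW Vale.Agent.P352.H246
open Vale.Agent.P352.H496 Vale.Agent.P352.H755 Vale.Agent.P352.H15 Vale.Agent.P352X.Ap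
open UniformSpace (Completion)

noncomputable section

namespace Cr

variable {D : Type*} [NormedAddCommGroup D] [InnerProductSpace ℂ D] [GrD D] {c : CtxZ D}
  {ρ φ : ℝ → ℝ} {S : Set ℝ} {L N K : ℝ} {v : ℝ → Completion D}

/-- the scalings that commute with `P_b` preserve its form -/
theorem qb_uscZ (hL : 0 < L) (w : Completion D) : c.qb (Usc c.Q L 1 w) = c.qb w := by
  have h : (c.nu (Usc c.Q L 1 w)).map (Br.dsc L 1) = c.nu w := by
    rw [Br.Usc_apply _ hL one_pos]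
    exact Kin.nu_UZ c.bR c.ct (Br.sc_pos hL one_pos) (Br.scL_lor hL one_pos) 0 w
  rw [CtxZ.qb, CtxZ.qb, ← h, lintegral_map (by fun_prop) (Br.dsc_meas L 1)]
  simp only [Br.al_dsc hL one_pos, one_mul]

theorem Qb_uscZ (G : GRPZ c) (hL : 0 < L) {w : Completion D} (h : QbZ c w N) :
    QbZ c (Usc c.Q L 1 w) N := ⟨(usc_normZ G _ _ w).trans_le h.1, (qb_uscZ hL w).trans_le h.2⟩

theorem inner_uscZ (G : GRPZ c) (hL : 0 < L) (w z : Completion D) :
    inner ℂ (Usc c.Q L 1 w) z = inner ℂ w (Usc c.Q L⁻¹ 1 z) := by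
  have := G.star_sc hL one_pos
  rw [inv_one] at this
  rw [← this, ContinuousLinearMap.star_eq_adjoint, ContinuousLinearMap.adjoint_inner_right]

theorem tr_sumZ (F : FLUXZ c) {g : Fin 2 → P3 → ℝ} (hg : ∀ i, Tst (g i)) (hφ : Tst φ) :
    ∃ C : ℝ, ∀ n w N, QbZ c w N →
      ‖inner ℂ (∑ i, TxZ c (ex i) (g i) (dil (ep n) φ)) w‖ ≤ C * N * (1 / 2) ^ n := by
  choose C hC using fun i => F.tr i (g i) φ (hg i) hφ
  refine ⟨∑ i, |C i|, fun n w N h => ?_⟩
  rw [sum_inner, Finset.sum_mul, Finset.sum_mul]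
  refine norm_sum_le_of_le _ fun i _ => (hC i _ (ep_mem n) w N h).trans ?_
  rw [mul_right_comm _ N]
  exact mul_le_mul_of_nonneg_right (mul_le_mul (le_abs_self _) (sqrt_ep n) (Real.sqrt_nonneg _)
    (abs_nonneg _)) h.nonneg

end Cr

open Cr

variable {D : Type*} [NormedAddCommGroup D] [InnerProductSpace ℂ D] [GrD D]

/-- **row BB.cross** -/
theorem cross_rowZ (c : CtxZ D) (t : T3Z c) (F : FLUXZ c) (E : DECZ c) : CROSSZ c := by
  intro d R u1 N χ ρ v hd hR hχ hρ hs hv hq η hη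
  obtain ⟨Γ, g1, φ0, γ, h1, h0, hγ, hp, hΓ, hL⟩ := E d R χ hd hR hχ
  have hi := av_int hρ isCompact_Icc hs hv
  have hε : ∀ᶠ n in atTop, ep n ≤ R :=
    (tendsto_ep.mono_right nhdsWithin_le_nhds).eventually_le_const (hd.trans_le hR)
  have h3 : 0 < η / 4 := by positivity
  have h4 : ‖(0 : ℂ)‖ < η / 4 := by rwa [norm_zero]
  obtain ⟨C, hC⟩ := tr_sumZ F h1 h0
  obtain ⟨m, m1, m2⟩ := (hε.and
    ((lim_half (2 * ((∫ u, |ρ u|) * (C * N)))).eventually_le_const h3)).exists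
  filter_upwards [eventually_ge_atTop R, (Far.wnZ t.grp t.bas (hp _ (ep_pos m))
    (∫ u, (ρ u : ℂ) • v u)).norm.eventually_le_const h4] with L l1 l2
  obtain ⟨g2, g3, h2, h3', e⟩ := hL L l1
  have l0 : 0 < L := hd.trans_le (hR.trans l1)
  obtain ⟨C2, hC2⟩ := F.bd g2 γ h2 hγ
  obtain ⟨C3, hC3⟩ := tr_sumZ F h3' hγ
  have a2 := av_lim hρ hs hi (fun n u hu => hC2 _ (ep_mem n) _ _ (hq u hu))
    fun u hu => (F.lim g2 γ _ _ h2 hγ (hq u hu)).comp tendsto_ep
  filter_upwards [hε, eventually_ge_atTop m, a2.norm.eventually_le_const h4,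
    (lim_half ((∫ u, |ρ u|) * (C3 * N))).eventually_le_const h3] with n n1 n2 n3 n4
  have a1 := dyadic (f := fun j => inner ℂ (Usc c.Q L 1 (Γ (ep j))) (∫ u, (ρ u : ℂ) • v u))
    (C := (∫ u, |ρ u|) * (C * N)) (fun j hj => by
      rw [← inner_sub_left, ← map_sub, hΓ j ((ep_anti hj).trans m1), ← av_eq hi, mul_assoc]
      refine av_le hρ hs fun u hu => ?_
      rw [inner_uscZ t.grp l0]
      exact hC j _ _ (Qb_uscZ t.grp (inv_pos.2 l0) (hq u hu))) n2
  have a3 := av_le hρ hs fun u hu => hC3 n _ _ (hq u hu)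
  rw [av_eq hi, ← mul_assoc] at a3
  rw [av_eq hi, e _ (ep_pos n) n1, inner_add_left, inner_add_left]
  refine (norm_add₃_le).trans ?_
  have a4 := norm_le_norm_add_norm_sub'
    (inner ℂ (Usc c.Q L 1 (Γ (ep n))) (∫ u, (ρ u : ℂ) • v u))
    (inner ℂ (Usc c.Q L 1 (Γ (ep m))) (∫ u, (ρ u : ℂ) • v u))
  linarith

end

end Vale.Agent.P352X.BX
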