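import Vale.Agent.P352X.R.BB.Dec
import Vale.Agent.P352Z.P352X.R.BB.DecA

open Vale.Agent.P352G

/-!
# P352X, row BB.dec: the total surface, by conservation
-/

set_option linter.all false

open MeasureTheory Filter Topology Set
open scoped SchwartzMap ComplexConjugate ContDiff

namespace Vale.Agent.P352X.BX

open Vale.Agent.P352 Vale.Agent.P352.GF Vale.Agent.P352.H755 Ap
open UniformSpace (Completion)

noncomputable section

namespace Dec

variable {t d R L ε : ℝ} {χ : ℝ → ℝ}

variable {D : Type*} [NormedAddCommGroup D] [InnerProductSpace ℂ D] [GrD D] (c : CtxZ D)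

/-- the total surface at scale one -/
def GmZ (R ε : ℝ) : Completion D := -TxZ c va (cut0 R) (dlt ε (deriv ps)) - TxZ c vb (fc R) (edge R ε) -
  TxZ c vb (fl (fc R)) fun t => ng (edge R ε) t + dil ε gm t

end Dec

open Dec

variable {D : Type*} [NormedAddCommGroup D] [InnerProductSpace ℂ D] [GrD D]

/-- **row BB.dec** -/
theorem dec_rowZ (c : CtxZ D) : T3Z c → DECZ c := by
  intro T d R χ hd hR h
  have G := T.grp
  have r := hd.trans_le hR
  have t0 := tst_cut0 r
  have tf : Tst (fc R) := tst_k3 tst_dkk (tst_kp r)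
  have tf' := tst_fl tf
  have tp : ∀ {ε : ℝ}, 0 < ε → Tst (dlt ε (deriv ps)) := fun e => tst_dlt tst_dps e.ne'
  have tg : ∀ {ε : ℝ}, 0 < ε → Tst (dil ε gm) := fun e => tst_dil tst_gm e.ne'
  have tn : ∀ {ε : ℝ}, 0 < ε → Tst fun t => ng (edge R ε) t + dil ε gm t := fun e =>
    cs_add (tst_ng (tst_edge r e)) (tg e)
  refine ⟨GmZ c R, fun i y => -di i (cut0 R) y, ph, gm, fun i => cs_neg (tst_di i t0), tst_ph, tst_gm,
    fun ε e => ?_, fun n hn => ?_, fun L hL => ?_⟩
  · rw [GmZ, inner_sub_right, inner_sub_right, inner_neg_right, Tx_perpZ G t0 (tp e),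
      Tx_perpZ G tf (tst_edge r e), Tx_perpZ G tf' (tn e)]
    simp
  · have e : 0 < ep n := by unfold ep; positivity
    have e1 : ep (n + 1) = ep n * (1 / 2) ^ 22 := by unfold ep; ring
    have th := tst_dil tst_ph e.ne'
    have e2 : (fun t => ng (edge R (ep n * (1 / 2) ^ 22)) t + dil (ep n * (1 / 2) ^ 22) gm t) =
        fun t => (ng (edge R (ep n)) t + dil (ep n) gm t) - dil (ep n) ph t := funext fun t => by
      simp only [ng, edge_step e hn, dil, gm, ph, div_div, neg_div]
      ring
    have k := Tx_consZ G t0 th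
    rw [da_cut0 r, Tx_sub_lZ tf tf' th] at k
    simp only [Tx_neg_lZ (tst_di _ t0) th, Finset.sum_neg_distrib, ← k]
    rw [e1, GmZ, GmZ, e2, funext (edge_step e hn), dlt_step, Tx_add_rZ t0 (tp e) (cs_deriv th),
      Tx_add_rZ tf (tst_edge r e) th, Tx_sub_rZ tf' (tn e) th]
    abel
  · have l := r.trans_le hL
    have s1 := tst_slab h r l
    have s2 := tst_slab (stp_opp h) r l
    have s3 := tst_fl s2
    have f1 : Tst (face R L) := cs_cmul _ (tst_kL tf l)
    have f2 := tst_fl f1
    refine ⟨fun y => da (fl (slab (opp χ) R L)) y + fl (face R L) y,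
      fun i y => -di i (fl (slab (opp χ) R L)) y, cs_add (tst_da s3) f2,
      fun i => cs_neg (tst_di i s3), fun ε e _ => ?_⟩
    have a : scp L 1 va = L • va := null_ext (by simp) (by simp) (by simp)
    have b : scp L 1 vb = (1 : ℝ) • vb := null_ext (by simp) (by simp) (by simp)
    have e1 : (fun y => L / L * kL (cut0 R) L y) =
        fun y => slab χ R L y + fl (slab (opp χ) R L) y :=
      funext fun y => by rw [slab_sum h hd (hR.trans hL), div_self l.ne', one_mul]
    have e2 : (fun y => 1 / L * kL (fc R) L y) = face R L := funext fun y => by rw [one_div]; rfl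
    have e3 : (fun y => 1 / L * kL (fl (fc R)) L y) = fl (face R L) :=
      funext fun y => by simp [fl, face, kL, fc, neg_div]
    have k := Tx_consZ G s3 (tg e)
    simp only [Tx_neg_lZ (tst_di _ s3) (tg e), Finset.sum_neg_distrib, ← k]
    rw [GGZ, GGZ, GmZ, map_sub, map_sub, map_sub, map_neg, map_neg,
      Tx_JZ T.jc (null_ext (by simp) (by simp) (by simp)) s2 (tp e),
      Tx_JZ T.jc (null_ext (by simp) (by simp) (by simp)) f1 (tst_edge r e),
      Tx_scZ G l a t0 (tp e), Tx_scZ G l b tf (tst_edge r e), Tx_scZ G l b tf' (tn e), e1, e2, e3,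
      ng_dlt, Tx_add_rZ s3 (tp e) (cs_deriv (tg e)), Tx_add_lZ s1 s3 (tp e),
      Tx_add_rZ f2 (tst_ng (tst_edge r e)) (tg e), Tx_add_lZ (tst_da s3) f2 (tg e)]
    abel

end

end Vale.Agent.P352X.BX
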