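import Vale.Agent.P352X.R.BB.Far
import Vale.Agent.P352Z.P352X.R.BB.Base

open Vale.Agent.P352G

/-!
# P352X, row BB: the gap and the far part
-/

open MeasureTheory Filter Topology Set Metric
open scoped SchwartzMap ComplexConjugate ENNReal ContDiff

namespace Vale.Agent.P352X.BX

open Vale.Agent.P352 Vale.Agent.P352.GF Vale.Agent.P352.BW Vale.Agent.P352.H246
open Vale.Agent.P352.H496 Vale.Agent.P352.H755 Vale.Agent.P352.H15 Vale.Agent.P352X.Ap
open Vale.Agent.P132 (ModData jconj)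
open UniformSpace (Completion)

noncomputable section

variable {D : Type*} [NormedAddCommGroup D] [InnerProductSpace ℂ D] [GrD D] {c : CtxZ D}
  {a b v a' b' v' : V} {f : Fn} {g κ κ0 : P3 → ℝ} {ρ χ θ : ℝ → ℝ} {O O1 O2 : Set V}
  {w w' : Completion D} {X X' : Completion D →L[ℂ] Completion D}

theorem mem_JZ (j : JCZ c) (ha : IsNull a) (hb : IsNull b) (h : 0 < mdot a b) (hX : X ∈ c.N O)
    (ev : Ev X) (e : ∀ z ∈ O, jr z ∈ Wdg a b v) :
    jconj c.J X ∈ c.N (Wdg a b v) ∧ Ev (jconj c.J X) := by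
  have n : ∀ a, IsNull a → IsNull (-jr a) := fun a ha =>
    ⟨by rw [md_neg, md_neg_l, neg_neg, md_jr, ha.1], by simpa [jr_apply, sj, o] using ha.2⟩
  have k : ∀ z, z ∈ Wdg (-jr b) (-jr a) (jr v) ↔ jr z ∈ Wdg a b v := fun z => by
    have k : ∀ a, mdot (-jr a) (z - jr v) = -mdot a (jr z - v) := fun a => by
      simp [mdot_null, d2_neg_l]
      ring
    simp only [Wdg, mem_ofPred_eq, k, neg_lt_zero, neg_pos, and_comm]
  have m := j.algE _ _ (jr v) (n b hb) (n a ha)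
    (by rwa [md_neg, md_neg_l, neg_neg, md_jr, md_comm]) X
      (c.N_mono (fun z hz => (k z).2 (e z hz)) X hX) ev
  exact ⟨c.N_mono (O' := Wdg a b v) (image_subset_iff.2 fun z hz => (k z).1 hz) _ m.1, m.2⟩

/-- locality of even operators in opposite wedges -/
theorem loc_evZ (j : JCZ c) (ha : IsNull a) (hb : IsNull b) (h : 0 < mdot a b)
    (e : O ⊆ Wdg a b v) (e' : O1 ⊆ Wdg b a v) (hX : X ∈ c.N O1) (ev : Ev X) :
    X ∈ (c.N O).commutant :=
  comm_anti (c.N_mono e) X ((j.dualE a b v ha hb h X ev).2 (c.N_mono e' X hX))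

/-- locality in wedges -/
theorem loc_wZ (t : T3Z c) (ha : IsNull a) (hb : IsNull b) (h : 0 < mdot a b) (ha' : IsNull a')
    (hb' : IsNull b') (h' : 0 < mdot a' b') (hX : X ∈ c.N O1) (ev : Ev X) (e : O1 ⊆ Wdg a b v)
    (hX' : X' ∈ c.N O2) (ev' : Ev X') (e' : ∀ z ∈ O2, jr z ∈ Wdg a' b' v') (hf : In O f) (k : O ⊆ Wdg b a v)
    (k' : O ⊆ Wdg b' a' v') (p q : V) :
    inner ℂ (c.Tv (hk p q (bar f))) (jconj c.J X' (X c.Om)) =
      inner ℂ (star X (star (jconj c.J X') c.Om)) (c.Tv (hk p q f)) := by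
  have m := mem_JZ t.jc ha' hb' h' hX' ev' e'
  have := t.grp.pr_Tv (in_hk p q hf) _ (mul_mem
    (loc_evZ t.jc hb' ha' (by rwa [md_comm]) k' le_rfl m.1 m.2)
    (loc_evZ t.jc hb ha (by rwa [md_comm]) k e hX ev))
  simp only [bar_hk, star_mul] at this
  exact this.symm

theorem gap_rowZ (c : CtxZ D) (t : T3Z c) : GAPZ c := by
  intro u0 d0 y1 r1 y2 r2 X X' g ρ d hg sg hρ sρ
  have := loc_wZ t null_va null_vb (md_ab ▸ one_pos) null_vb null_va (by simp [md_vb])
    d.m1 d.e1 (v := pt d0 (-u0) 0) (fun z hz => mem_W.2 (by simpa using d.s1 hz)) d.m2 d.e2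
    (v' := pt (-d0) u0 0) (fun z hz => mem_W'.2 (by simpa [lt_neg, and_comm] using d.s2 hz))
    (in_pr (O := {z | |al z| < d0 ∧ be z ∈ Ioo (-u0) u0}) hg hρ fun z h1 h2 => ⟨sg h1, sρ h2⟩)
    (fun z hz => mem_W'.2 (by simpa using ⟨(abs_lt.1 hz.1).2, hz.2.1⟩))
    (fun z hz => mem_W.2 (by simpa using ⟨hz.2.2, (abs_lt.1 hz.1).1⟩)) va va
  rwa [bar_pr] at this

/-- locality far away -/
theorem loc_farZ (t : T3Z c) {y1 y2 : V} {r1 r2 : ℝ} (hX : X ∈ c.N (dc y1 r1))
    (hX' : X' ∈ c.N (dc y2 r2)) (ev : Ev X) (ev' : Ev X') (p q : V) : ∃ R > 0, ∀ f, In (Jc (closedBall 0 R))ᶜ f →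
      inner ℂ (c.Tv (hk p q (bar f))) (jconj c.J X' (X c.Om)) =
        inner ℂ (star X (star (jconj c.J X') c.Om)) (c.Tv (hk p q f)) := by
  obtain ⟨R, R0, hR⟩ := ((isBounded_ball (x := y1) (r := r1)).union
    (isBounded_ball (x := jr y2) (r := r2))).subset_ball_lt 0 0
  have k : ball 0 R ⊆ closure (dc 0 (4 * R)) := fun z hz =>
    subset_closure (ball_dc _ _ (by simpa using hz))
  refine ⟨4 * R, by positivity, fun f hf => in_ind_dc (r := 4 * R) (y := 0) (by positivity)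
    (compl_subset_compl.2 (Jc_mono (closure_dc_ball _ _))) ?_ (fun f g hf hg h1 h2 => ?_)
    (fun a b v f ha hb h e hf => loc_wZ t ha hb h ha hb h hX ev
      (fun z hz => e (k (hR (.inl (dc_ball _ _ hz))))) hX' ev' (fun z hz => e (k (hR (.inr (dc_ball _ _
        ((dc_jr _ _).ge hz)))))) hf inter_subset_left inter_subset_left p q) hf⟩
  · rw [show bar (fun _ => 0) = fun _ => 0 from funext fun _ => star_zero _, Tv_zeroZ,
      inner_zero_left, inner_zero_right]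
  · rw [show bar (fun x => f x + g x) = fun x => bar f x + bar g x from
      funext fun _ => star_add _ _, Tv_addZ (test_bar hf.1) (test_bar hg.1), Tv_addZ hf.1 hg.1,
      inner_add_left, inner_add_right, h1, h2]

theorem om2_eqZ (w w' : Completion D) (χ : ℝ → ℝ) (g : P3 → ℝ) (ρ : ℝ → ℝ) :
    c.om2 w w' χ (hk va va (pr g ρ)) = inner ℂ (TPZ c va va (fun q => χ q.1 * g q) ρ) w +
      inner ℂ w' (TPZ c va va (fun q => (1 - χ q.1) * g q) ρ) := by
  simp only [CtxZ.om2, bar_hk, bar_pr, TPZ]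
  congr 3 <;> funext m n z <;> simp only [hk, pr, pl_1] <;> push_cast <;> ring

theorem lim1Z (t : T3Z c) (hg : Tst g) (hρ : Tst ρ) (y : R2) (w : Completion D) :
    Tendsto (fun L => inner ℂ (TPZ c va va (fun q => d2 q.2 q.2 * kL g L (q.1, q.2 + y)) ρ) w) atTop
      (𝓝 0) := by
  have m : (fun z => (d2 (tx z) (tx z) : ℂ)).HasTemperateGrowth := by fun_prop
  have k := tst_sh hg
  let η : R2 → Completion D := fun v =>
    TLZ c va va (SchwartzMap.smulLeftCLM ℂ (fun z => (d2 (tx z) (tx z) : ℂ))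
      (ST.tsl (-tv v) (sch (pr g ρ))))
  have e : ∀ v, η v = TPZ c va va (fun q => d2 q.2 q.2 * g (q.1, q.2 + v)) ρ := fun v => by
    rw [TP_schZ (k v) hρ, Ap.sch_eq (G := SchwartzMap.smulLeftCLM ℂ
      (fun z => (d2 (tx z) (tx z) : ℂ)) (ST.tsl (-tv v) (sch (pr g ρ)))) fun z => ?_]
    rw [SchwartzMap.smulLeftCLM_apply_apply m, ST.tsl_apply, sch_dc (dc_pr hg hρ)]
    simp [pr, pl, mul_assoc]
  have h1 : Tendsto (fun L : ℝ => (Real.sqrt L)⁻¹ • y) atTop (𝓝 0) := by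
    simpa using (tendsto_inv_atTop_zero.comp Real.tendsto_sqrt_atTop).smul_const y
  have h2 : Continuous η := (TLZ c va va).continuous.comp ((SchwartzMap.smulLeftCLM ℂ _).continuous.comp
    (ST.continuous_tsl.comp (cont_tv.neg.prodMk continuous_const)))
  refine (t.bas.wn ℝ atTop (fun L => max L 1) (fun _ => 1) (fun _ => 0) _ _ w
    (fun L => ⟨lt_max_of_lt_right one_pos, one_pos⟩)
    (.inl (tendsto_atTop_mono (fun L => le_max_left L 1) tendsto_id)) ((h2.tendsto 0).comp h1)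
    (e 0 ▸ perp_TPZ t.grp (k 0) hρ _ _)).congr' ?_
  filter_upwards [eventually_ge_atTop (1 : ℝ)] with L hL
  have L0 := one_pos.trans_le hL
  rw [t.grp.ut0, max_eq_left hL, Function.comp, e, one_apply_eq_self, TPZ,
    Far.usc_TvZ t.grp (k _) hρ L0, ← TPZ, ← TP_mul_gZ L (tst_kL (k _) L0) hρ]
  congr 2
  funext q
  simp only [kL, d2_smul, d2_smul_l, smul_add, ← mul_assoc, ← mul_inv,
    Real.mul_self_sqrt L0.le, mul_inv_cancel₀ L0.ne', one_mul]

theorem lim2Z (t : T3Z c) (hθ : ContDiff ℝ ∞ θ) (hκ : Tst κ) (hκ0 : Tst κ0) (hρ : Tst ρ) (y : R2)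
    (w : Completion D) : Tendsto (fun L => inner ℂ (TPZ c va va (fun q => θ (q.1 / L) *
      (d2 q.2 q.2 * (kL κ L (q.1, q.2 + y) - kL κ0 L q))) ρ) w) atTop (𝓝 0) := by
  have m : ∀ κ, Tst κ → Tst fun q : P3 => θ q.1 * κ q := fun κ h =>
    cs_mul_l (hθ.comp contDiff_fst) h
  have := (lim1Z t (m κ hκ) hρ y w).sub (lim1Z t (m κ0 hκ0) hρ 0 w)
  rw [sub_zero] at this
  refine this.congr' ((eventually_gt_atTop 0).mono fun L hL => ?_)
  simp only
  rw [← inner_sub_left, ← TP_sub_gZ (tst_sh (tst_kL (m κ hκ) hL) y)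
    (tst_sh (tst_kL (m κ0 hκ0) hL) 0) hρ]
  congr 2
  funext q
  simp only [kL, add_zero]
  ring

theorem far_rowZ (c : CtxZ D) (t : T3Z c) : FARZ c := by
  intro u0 d0 y1 r1 y2 r2 X X' χ κ κ0 ρ y d hχ hκ hκ0 hρ sρ
  obtain ⟨R, R0, hR⟩ := loc_farZ t d.m1 d.m2 d.e1 d.e2 va va
  obtain ⟨ε, ε0, hε⟩ := Metric.eventually_nhds_iff.1 (hκ.2.and hκ0.2)
  have M0 : 0 < 2 * R + |u0| := by positivity
  obtain ⟨δ, δ0, δ1, δ2⟩ : ∃ δ > 0, δ < ε ∧ 2 * δ ≤ (ε / 2) ^ 2 / (4 * (2 * R + |u0|)) :=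
    ⟨min (ε / 2) ((ε / 2) ^ 2 / (4 * (2 * R + |u0|)) / 2), by positivity,
      (min_le_left _ _).trans_lt (by linarith), by
        linarith [min_le_right (ε / 2) ((ε / 2) ^ 2 / (4 * (2 * R + |u0|)) / 2)]⟩
  obtain ⟨θ, hθ, θ0, θ1, -⟩ := ex_step (show -δ < δ by linarith)
  have := (lim2Z t hθ hκ.1 hκ0.1 hρ y (jconj c.J X' (X c.Om))).add ((Complex.continuous_conj.tendsto
    _).comp (lim2Z t (θ := fun s => 1 - θ s) (contDiff_const.sub hθ) hκ.1 hκ0.1 hρ y
      (star X (star (jconj c.J X') c.Om))))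
  rw [map_zero, add_zero] at this
  refine this.congr' ?_
  have h1 : Tendsto (fun L : ℝ => ‖(Real.sqrt L)⁻¹ • y‖) atTop (𝓝 0) := by
    simpa using ((tendsto_inv_atTop_zero.comp Real.tendsto_sqrt_atTop).smul_const y).norm
  filter_upwards [eventually_gt_atTop 0, eventually_gt_atTop (2 * R / δ),
    eventually_ge_atTop (d0 / 2 / δ), h1.eventually_lt_const (half_pos ε0)] with L L0 L1 L2 L3
  have hg : Tst fun q : P3 => d2 q.2 q.2 * (kL κ L (q.1, q.2 + y) - kL κ0 L q) := by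
    simpa only [mul_sub, add_zero, tst_iff] using cs_sub (tst_sh (tst_kL hκ.1 L0) y)
      (tst_sh (tst_kL hκ0.1 L0) 0)
  rw [div_le_iff₀ δ0] at L2
  simp only [Function.comp, inner_conj_symm, om2_eqZ]
  generalize e : (fun q : P3 => d2 q.2 q.2 * (kL κ L (q.1, q.2 + y) - kL κ0 L q)) = g at hg
  simp only [congrFun e]
  have m : ∀ {θ : ℝ → ℝ}, ContDiff ℝ ∞ θ → Tst fun q : P3 => θ q.1 * g q := fun h =>
    cs_mul_l (h.comp contDiff_fst) hg
  have a1 := m (smooth_dil hθ L)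
  have a2 := m (hχ.1.sub (smooth_dil hθ L))
  have a3 := m (contDiff_const.sub (smooth_dil hθ L) (f := fun _ => 1))
  have s : tsupport (fun q : P3 => (χ q.1 - dil L θ q.1) * g q) ⊆
      {q | |q.1 / L| ≤ δ ∧ ε / 2 ≤ ‖(Real.sqrt L)⁻¹ • q.2‖} :=
    tsupp_sub (.and (isClosed_le (by fun_prop) continuous_const)
      (isClosed_le continuous_const (by fun_prop))) fun q hq => by
        have b1 : |q.1 / L| ≤ δ := by
          refine abs_le.2 ⟨not_lt.1 fun h => ?_, not_lt.1 fun h => ?_⟩ <;>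
            apply left_ne_zero_of_mul hq
          · rw [dil, θ0 _ h.le, hχ.2.1 _ (by linarith [(div_lt_iff₀ L0).1 h]), sub_self]
          · rw [dil, θ1 _ h.le, hχ.2.2 _ (by linarith [(lt_div_iff₀ L0).1 h]), sub_self]
        refine ⟨b1, not_lt.1 fun h => right_ne_zero_of_mul hq ?_⟩
        have b2 : ∀ x : R2, ‖x‖ < ε → dist ((q.1 / L, x) : P3) 0 < ε := fun x hx => by
          rw [dist_zero_right]
          exact max_lt (b1.trans_lt δ1) hx
        rw [← e]
        simp only [kL, smul_add]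
        rw [(hε (b2 _ ((norm_add_le _ _).trans_lt (by linarith)))).1,
          (hε (b2 _ (h.trans (half_lt_self ε0)))).2, sub_self, mul_zero]
  have z := hR _ (in_pr a2 hρ fun z h1 h2 => notMem_Jc.2 fun x hx => by
    obtain ⟨b1, b2⟩ := s h1
    have b3 := mem_closedBall_zero_iff.1 hx
    have b4 := Far.far_est (s := -|al z|) (x := z) R0 (abs_nonneg u0) δ0 L1 b3
      (abs_nonneg (al z - al x)) (B := |be z - be x|)
      (by linarith [abs_sub (al z) (al x), abs_al_le x])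
      (by linarith [abs_sub (be z) (be x), abs_be_le x, (abs_lt.2 (sρ h2)).le, le_abs_self u0]) (by
        have := div_le_div_of_nonneg_right ((pow_le_pow_left₀ (half_pos ε0).le b2 2).trans
          (norm_sq_le_d2 _)) (show 0 ≤ 4 * (2 * R + |u0|) by positivity)
        rw [abs_div, abs_of_pos L0, pl_1] at b1
        rw [neg_div]
        exact (by linarith : _ ≤ _ + _).trans (add_le_add_right this _))
    rw [mu_eq, al_sub, be_sub, tx_sub, mul_assoc]
    rw [mul_assoc, ← abs_mul] at b4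
    linarith [le_abs_self ((al z - al x) * (be z - be x))])
  rw [bar_pr, ← TPZ] at z
  rw [show (fun q : P3 => χ q.1 * g q) = fun q => dil L θ q.1 * g q + (χ q.1 - dil L θ q.1) * g q
    from funext fun q => by ring, show (fun q : P3 => (1 - χ q.1) * g q) = fun q =>
      (1 - dil L θ q.1) * g q - (χ q.1 - dil L θ q.1) * g q from funext fun q => by ring,
    TP_add_gZ a1 a2 hρ, TP_sub_gZ a3 a2 hρ, inner_add_left, inner_sub_right, z]
  simp only [dil]
  ring

end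

end Vale.Agent.P352X.BX
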