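import Vale.Agent.P352X.R.BB.Fin
import Vale.Agent.P352Z.P352X.R.BB.Base

open Vale.Agent.P352G

/-!
# P352X, row BB.fin: the main terms and the form
-/

set_option linter.all false

open MeasureTheory Filter Topology Set
open scoped SchwartzMap ComplexConjugate ENNReal ContDiff

namespace Vale.Agent.P352X.BX

open Vale.Agent.P352 Vale.Agent.P352.GF Vale.Agent.P352.BW Vale.Agent.P352.H246
open Vale.Agent.P352.H496 Vale.Agent.P352.H755 Vale.Agent.P352.H15 Vale.Agent.P352X.Ap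
open Vale.Agent.P132 (ModData jconj)
open UniformSpace (Completion)
open Complex (I)

noncomputable section

namespace En

variable {χ : ℝ → ℝ} {d R L : ℝ}

variable {D : Type*} [NormedAddCommGroup D] [InnerProductSpace ℂ D] [GrD D] {c : CtxZ D}

lemma om2_eqZ (w w' : Completion D) (ρ : ℝ → ℝ) :
    c.om2 w w' χ (hk va va (pr (fun q => d2 q.2 q.2 * kL (cut0 R) L q) ρ)) =
      inner ℂ (TPZ c va va (A χ R L) ρ) w +
        inner ℂ w' (TPZ c va va (A (fun t => 1 - χ t) R L) ρ) := by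
  rw [CtxZ.om2, TPZ, TPZ]
  congr 3 <;> funext m n z
  · simp only [bar, hk, pr, A, pl, Complex.star_def, map_mul, Complex.conj_ofReal]
    push_cast
    ring
  · simp only [hk, pr, A, pl]
    push_cast
    ring

end En

open En

variable {D : Type*} [NormedAddCommGroup D] [InnerProductSpace ℂ D] [GrD D]

theorem fin_rowZ (c : CtxZ D) (t : T3Z c) (gap : GAPZ c) : ENDZ c := by
  intro u0 d0 y1 r1 y2 r2 X X' χ ρ R dat hχ hR hρ hs
  have g := t.grp
  have h1 := (Far.limPZ g t.bas (tst_F hR) hρ (jconj c.J X' (X c.Om))).add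
    (Far.limMZ g t.bas (tst_fl (tst_F hR)) hρ (star X (star (jconj c.J X') c.Om)))
  rw [add_zero] at h1
  refine h1.congr' ?_
  filter_upwards [eventually_ge_atTop d0] with L hd
  have hL := dat.hd.trans_le hd
  have a1 := tst_A hχ.1 hR hL
  have a2 := tst_A (χ := fun t => 1 - χ t) (contDiff_const.sub hχ.1) hR hL
  have a3 := tst_G hχ hR hL
  have a4 := tst_kL (tst_F hR) hL
  have a5 := tst_kL (tst_fl (tst_F hR)) hL
  rw [om2_eqZ, c.E.inner_J_right, J_TP_aaZ t.jc (tst_x2 (tst_da (tst_ap 1 (tst_slab hχ.opp hR hL))))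
    (tst_ng hρ), ng_ng, split hχ hR hL hd, split' hχ hR hL hd,
    TP_add_gZ (cs_add a1 a3) (cs_cmul L a4) hρ, TP_add_gZ a1 a3 hρ,
    TP_add_gZ (cs_sub a2 a3) (cs_cmul L a5) hρ, TP_sub_gZ a2 a3 hρ, TP_mul_gZ L a4 hρ,
    TP_mul_gZ L a5 hρ, Far.usc_TvZ g (tst_F hR) hρ hL, Far.usc_TvZ g (tst_fl (tst_F hR)) hρ hL,
    inner_add_left, inner_add_left, inner_add_right, inner_sub_right,
    gap _ _ _ _ _ _ X X' _ ρ dat a3 (supp_G hχ dat.hd) hρ hs]
  simp only [TPZ]
  ring

end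

end Vale.Agent.P352X.BX
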