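import Vale.Agent.P352X.R.BB.Half
import Vale.Agent.P352Z.P352X.R.BB.Spec
import Vale.Agent.P352Z.P352X.R.GRP.B
import Vale.Agent.P352Z.P352X.R.GRP.C

open Vale.Agent.P352G

/-!
# P352X, row BB.half: the Ward identity of the boost on the surface below the plane
-/

set_option linter.all false

open MeasureTheory Filter Topology Set
open scoped SchwartzMap ComplexConjugate ENNReal ContDiff

namespace Vale.Agent.P352X.BX

open Vale.Agent.P352 Vale.Agent.P352.GF Vale.Agent.P352.H755 Vale.Agent.P352.H496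
open Vale.Agent.P352X.Ap

noncomputable section

namespace Half

variable {χ : ℝ → ℝ} {d e R L ε : ℝ} {z : V} {K : Set V}

variable {D : Type*} [NormedAddCommGroup D] [InnerProductSpace ℂ D] [GrD D] (c : CtxZ D)

theorem Tv_subZ {F G : Ix → Ix → Fn} (hF : ∀ m n, IsTest (F m n)) (hG : ∀ m n, IsTest (G m n)) :
    c.Tv (fun m n z => F m n z - G m n z) = c.Tv F - c.Tv G := by
  choose f hf using hF
  choose g hg using hG
  rw [CtxZ.Tv, CtxZ.Tv, CtxZ.Tv, ← UniformSpace.Completion.coe_sub]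
  simp only [CtxZ.Tf, ← Finset.sum_sub_distrib, ← hf, ← hg]
  exact congrArg _ (Finset.sum_congr rfl fun m _ => Finset.sum_congr rfl fun n _ =>
    map_sub (Grp.fC (Grp.T_fld c.hT m n) c.Q.vac) (f m n) (g m n))

theorem Tx_eqZ (h : V) {g : P3 → ℝ} {φ : ℝ → ℝ} (hg : Tst g) (hφ : Tst φ) :
    TxZ c h g φ = c.Tv (hX h bf (pr g φ)) := by
  rw [TxZ, TPZ, TPZ, ← Tv_subZ c (test_hk _ _ (test_pr (tst_ap 1 hg) hφ))
    (test_hk _ _ (test_pr hg (tst_tm hφ)))]
  congr 1
  funext m n z
  simp only [hk, hX, pr, ap, tm, bf, pl_1, Pi.sub_apply, Pi.smul_apply, smul_eq_mul]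
  push_cast
  ring

theorem GG_eqZ (h : Stp d χ) (hR : 0 < R) (hε : 0 < ε) (h1 : ε ≤ 2 * R) (hd : d / 2 ≤ L)
    (hL : 0 < L) : GGZ c χ R L ε = c.Tv (dens (ct χ R L ε) (st L ε) bf) := by
  have b : bf.HasTemperateGrowth := by unfold bf; fun_prop
  have a1 := tst_slab h hR hL
  have a2 := tst_dlt tst_dps hε.ne'
  have a3 := test_hX va b (test_pr a1 a2)
  have a4 := test_hX vb b (test_pr (tst_face hR hL) (tst_edge hR hε))
  have z : c.Tv (fun _ _ _ => 0) = 0 := by
    simpa using Tv_subZ c a3 a3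
  rw [GGZ, Tx_eqZ c _ a1 a2, Tx_eqZ c _ (tst_face hR hL) (tst_edge hR hε), ← zero_sub, ← z,
    ← Tv_subZ c (fun _ _ => sw_zero) a3, ← Tv_subZ c (fun m n => sw_sub sw_zero (a3 m n)) a4]
  congr 1
  funext m n z
  simp only [hX, pr, dens, dr_st, ← ct_slab hε h1 hL, ← ct_face h hε hd hL]
  push_cast
  ring

end Half

open Half

theorem half_rowZ {D : Type*} [NormedAddCommGroup D] [InnerProductSpace ℂ D] [GrD D] (c : CtxZ D)
    (t : T3Z c) : HALFZ c := by
  intro d d1 e R L ε χ y r X k hd h0 h1 h2 hε h3 h4 h hr hX ev hB hk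
  have hR := hd.trans_le h1
  have w : ∀ z, be z < 0 → -d1 < al z → z ∈ Wdg va vb (-(d1 • va)) := fun z a b =>
    ⟨by simpa [md_va] using a, by simpa [md_vb] using neg_lt_iff_pos_add.1 b⟩
  rw [GG_eqZ c h hR hε (by linarith) (by linarith) (by linarith)]
  refine t.f2 y r va vb _ _ _ (fun s => bst va vb (Real.exp s - 1) (Real.exp (-s) - 1)) (fun _ => 0)
    bf X k hr null_va null_vb (by simp [md_ab]) hX ev (chg hd h1 h2 hε h3 h4 h hB)
    (fun z hz => ?_) (fun z hz => ?_) (by funext m; simp [bst, GF.one]) rfl Grp.lor_bo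
    (fun n z => ?_) (by simpa only [← Grp.bo_eq] using hk)
  · obtain ⟨-, a, b, -⟩ := hB (subset_closure hz)
    exact w z (by linarith) (by linarith)
  · obtain ⟨a, b⟩ := supp_ct h hε hz
    exact w z (by linarith) (by linarith)
  · simp only [sim_bst, md_va, md_vb, bf, Pi.add_apply, Pi.sub_apply, Pi.smul_apply, smul_eq_mul]
    refine ((((((Real.hasDerivAt_exp 0).sub_const 1).mul_const (al z)).mul_const (va n)).const_add
      (z n)).add (((((hasDerivAt_neg (0 : ℝ)).exp).sub_const 1).mul_const (be z)).mul_const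
        (vb n))).congr_deriv ?_
    rw [neg_zero, Real.exp_zero]
    ring

end

end Vale.Agent.P352X.BX
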