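import Vale.Agent.P352X.R.BB.KS
import Vale.Agent.P352Z.P352X.R.BB.Base

open Vale.Agent.P352G

/-!
# P352X, row BB.ks: `K` on thin slabs (helper64)
-/

set_option linter.all false

open MeasureTheory Filter Topology Set
open scoped SchwartzMap ComplexConjugate ENNReal ContDiff

namespace Vale.Agent.P352X.BX

open Vale.Agent.P352 Vale.Agent.P352.GF Vale.Agent.P352.BW Vale.Agent.P352.H246
open Vale.Agent.P352.H496 Vale.Agent.P352.H755 Vale.Agent.P352.H15 Vale.Agent.P352X.Ap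
open UniformSpace (Completion)
open Complex (I)

noncomputable section

variable {D : Type*} [NormedAddCommGroup D] [InnerProductSpace ℂ D] [GrD D] {c : CtxZ D}
  {g : P3 → ℝ} {φ ρ : ℝ → ℝ} {F F' : ℝ → Completion D}

namespace Ks

variable (c) in
/-- the terms without a derivative along `a` -/
def RmZ (h k : V) (g : P3 → ℝ) (φ : ℝ → ℝ) : Completion D := ∑ i,
  (TPZ c h k (di i (xi i g)) (tm φ) - TPZ c (mv i h) k (xi i g) φ - TPZ c h (mv i k) (xi i g) φ)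

theorem K_TPZ (G : GENZ c) (hg : Tst g) (hφ : Tst φ) (h k : V) : gen c.SK (TPZ c h k g φ) =
    KtZ c h k (pr g φ) + I • TPZ c h k (x2 (da g)) φ + (2 * I) • RmZ c h k g φ := by
  have e1 (i : Fin 2) : (fun z => ((tx z i : ℝ) : ℂ) * pr g φ z) = pr (xi i g) φ := by
    funext z; simp [pr, xi, pl, mul_assoc]
  have e2 : (fun z => ((d2 (tx z) (tx z) : ℝ) : ℂ) * pr g φ z) = pr (x2 g) φ := by
    funext z; simp [pr, x2, pl, mul_assoc]
  have e3 (i : Fin 2) : c.Tv (hk h k (Mc i (pr (xi i g) φ))) =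
      TPZ c h k (xi i (xi i (da g))) φ + TPZ c h k (di i (xi i g)) (tm φ) := by
    rw [TPZ, TPZ, ← Tv_addZ (test_pr (tst_xi i (tst_xi i (tst_da hg))) hφ)
      (test_pr (tst_di i (tst_xi i hg)) (tst_tm hφ)), ← da_xi i (tst_diff hg)]
    congr 2
    funext z
    rw [Mc, dv_pr_a (tst_diff (tst_xi i hg)) (tst_diff hφ),
      dv_pr_ex (tst_diff (tst_xi i hg)) (tst_diff hφ)]
    simp only [pr, xi, da, di, dx, tm, pl]
    push_cast
    ring
  have e4 : gen (Pa c.Q) (c.Tv (hk h k (pr (x2 g) φ))) = I • TPZ c h k (x2 (da g)) φ := by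
    have := (G.ut va h k _ (test_pr (tst_x2 hg) hφ)).gen_eq
    rw [dv_pr_a (tst_diff (tst_x2 hg)) (tst_diff hφ)] at this
    rw [← da_x2 (tst_diff hg)]
    exact this
  have e5 : TPZ c h k (x2 (da g)) φ = ∑ i, TPZ c h k (xi i (xi i (da g))) φ := by
    rw [← TP_sum_gZ (fun i _ => tst_xi i (tst_xi i (tst_da hg))) hφ]
    congr 1
    funext y
    simp [x2, xi, d2]
    ring
  simp only [KtZ, e1, e2, e4, (G.mi _ h k _ (test_pr (tst_xi _ hg) hφ)).gen_eq, e3, e5]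
  simp only [RmZ, mv, Fin.sum_univ_two, TPZ]
  module

theorem ot_TPZ (l : L1Z c) (hρ : Tst ρ) (hg : Tst g) (hφ : Tst φ) (h k : V) :
    Ot fun t => RbZ c ρ (TPZ c h k g (dil (t ^ 22) φ)) := by
  obtain ⟨C, H⟩ := l.l1 h k ρ g hρ hg
  refine ⟨|C| * ∫ t, |φ t|, fun t ht => (H _ (tst_dil hφ (pow_pos ht.1 _).ne')).trans ?_⟩
  have h0 : 0 ≤ ∫ t, |φ t| := integral_nonneg fun _ => abs_nonneg _
  have h1 := pow_pos ht.1 22
  rw [show (fun u => |dil (t ^ 22) φ u|) = dil (t ^ 22) fun u => |φ u| from rfl,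
    integral_dil h1, mul_comm (t ^ 22), mul_assoc]
  refine mul_le_mul (le_abs_self _) (mul_le_mul_of_nonneg_left ?_ h0) (by positivity) (abs_nonneg _)
  exact pow_le_of_le_one ht.1.le ht.2 (by norm_num)

theorem TP_tmZ (hg : Tst g) (hφ : Tst φ) (h k : V) {s : ℝ} (hs : 0 < s) :
    TPZ c h k g (tm (dil s φ)) = (s : ℂ) • TPZ c h k g (dil s (tm φ)) := by
  rw [tm_dil s hs.ne', TP_mul_pZ s hg (tst_dil (tst_tm hφ) hs.ne')]

theorem ot_exZ (T : T3Z c) (l : L1Z c) (hρ : Tst ρ) (hg : Tst g) (hφ : Tst φ) (h k : V) :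
    Ot fun t => RbZ c ρ (gen c.SK (TPZ c h k g (dil (t ^ 22) φ))) -
      RbZ c ρ (KtZ c h k (pr g (dil (t ^ 22) φ))) := by
  have o (i) := ((ot_TPZ l hρ (tst_di i (tst_xi i hg)) (tst_tm hφ) h k).pw.sub
    (ot_TPZ l hρ (tst_xi i hg) hφ (mv i h) k)).sub (ot_TPZ l hρ (tst_xi i hg) hφ h (mv i k))
  refine (((ot_TPZ l hρ (tst_x2 (tst_da hg)) hφ h k).cs I).add
    (((o 0).add (o 1)).cs (2 * I))).congr fun t ht => ?_
  have s := pow_pos ht.1 22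
  simp only [K_TPZ T.gen hg (tst_dil hφ s.ne'), RmZ, Fin.sum_univ_two, Rb_addZ T.grp hρ,
    Rb_subZ T.grp hρ, Rb_smulZ, TP_tmZ (tst_di _ (tst_xi _ hg)) hφ _ _ s]
  abel

theorem faceZ (T : T3Z c) (l : L1Z c) (kt : KTZ c) (hρ : Tst ρ) (hg : Tst g) (hφ : Tst φ)
    (hs : tsupport φ ⊆ Iio 0) :
    Ot fun t => RbZ c ρ (gen c.SK (TxZ c vb g (dil (t ^ 22) φ))) := by
  have hs' := (tsupport_tm φ).trans hs
  have o1 : Ot fun t => RbZ c ρ (KtZ c vb va (pr (ap 1 g) (dil (t ^ 22) φ))) :=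
    (kt ρ _ φ hρ (tst_ap 1 hg) hφ hs).imp fun C h t ht => (h t ht).2.2.1
  have o2 : Ot fun t => ((t ^ 22 : ℝ) : ℂ) • RbZ c ρ (KtZ c vb vb (pr g (dil (t ^ 22) (tm φ)))) :=
    (kt ρ _ _ hρ hg (tst_tm hφ) hs').imp fun C h t ht => by
      rw [norm_smul, Complex.norm_real, Real.norm_of_nonneg (pow_pos ht.1 _).le]
      exact (h t ht).2.2.2
  refine ((o1.add (ot_exZ T l hρ (tst_ap 1 hg) hφ vb va)).sub
    (o2.add (ot_exZ T l hρ hg (tst_tm hφ) vb vb).pw)).congr fun t ht => ?_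
  have s := pow_pos ht.1 22
  have d := dm_TPZ T.kd hg (tst_dil (tst_tm hφ) s.ne') (tsupport_dil_neg hs' s) vb vb
  rw [TxZ, TP_tmZ hg hφ _ _ s, gen_sub (dm_TPZ T.kd (tst_ap 1 hg) (tst_dil hφ s.ne')
    (tsupport_dil_neg hs s) vb va) (d.smul _), gen_smul _ d, Rb_subZ T.grp hρ, Rb_smulZ]
  module

theorem slabZ (T : T3Z c) (l : L1Z c) (kt : KTZ c) (hρ : Tst ρ) (hg : Tst g) (hφ : Tst φ)
    (hs : tsupport φ ⊆ Iio 0) :
    Tendsto (fun t : ℝ => RbZ c ρ (gen c.SK (TxZ c va g (dlt (t ^ 22) φ)))) (𝓝[>] 0)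
      (𝓝 (((∫ t, φ t : ℝ) : ℂ) • I • TPZ c va va (x2 (da (ap 1 g))) ρ)) := by
  have hs' := (tsupport_tm φ).trans hs
  have g1 := tst_ap 1 hg
  have o1 : Ot fun t => (((t ^ 22)⁻¹ : ℝ) : ℂ) •
      RbZ c ρ (KtZ c va va (pr (ap 1 g) (dil (t ^ 22) φ))) :=
    (kt ρ _ φ hρ g1 hφ hs).imp fun C h t ht => by
      have s := pow_pos ht.1 22
      rw [norm_smul, Complex.norm_real, Real.norm_of_nonneg (inv_pos.2 s).le,
        inv_mul_le_iff₀ s, mul_comm]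
      exact (h t ht).1
  have o2 : Ot fun t => RbZ c ρ (KtZ c va vb (pr g (dil (t ^ 22) (tm φ)))) :=
    (kt ρ _ _ hρ hg (tst_tm hφ) hs').imp fun C h t ht => (h t ht).2.1
  have o (i) := ot_TPZ l hρ (tst_di i (tst_xi i g1)) (tst_tm hφ) va va
  have l1 := ((l.del va va ρ _ φ hρ (tst_x2 (tst_da g1)) hφ).comp tendsto_pow22).const_smul I
  have l2 := l1.add ((o1.add (((o 0).add (o 1)).cs (2 * I))).sub
    (o2.add (ot_exZ T l hρ hg (tst_tm hφ) va vb))).lim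
  rw [add_zero, smul_comm] at l2
  refine l2.congr' (mem_of_superset self_mem_nhdsWithin fun t (ht : 0 < t) => ?_)
  have s := pow_pos ht 22
  have s' : (((t ^ 22)⁻¹ : ℝ) : ℂ) * (t ^ 22 : ℝ) = 1 := by
    rw [← Complex.ofReal_mul, inv_mul_cancel₀ s.ne', Complex.ofReal_one]
  have d := dm_TPZ T.kd g1 (tst_dil hφ s.ne') (tsupport_dil_neg hs s) va va
  have m (i) : mv i va = 0 := by simp [mv]
  have t1 := tst_dil hφ s.ne'
  show _ = RbZ c ρ _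
  rw [TxZ, tm_dlt, dlt_eq, TP_mul_pZ _ g1 t1, gen_sub (d.smul _) (dm_TPZ T.kd hg
    (tst_dil (tst_tm hφ) s.ne') (tsupport_dil_neg hs' s) va vb), gen_smul _ d, K_TPZ T.gen g1 t1]
  simp only [Function.comp, dlt_eq, TP_mul_pZ _ (tst_x2 (tst_da g1)) t1, RmZ, m, Fin.sum_univ_two,
    TP_tmZ (tst_di _ (tst_xi _ g1)) hφ _ _ s]
  simp only [TPZ, Tv_zero_lZ (test_pr (tst_xi _ g1) t1), Tv_zero_rZ (test_pr (tst_xi _ g1) t1),
    sub_zero, Rb_addZ T.grp hρ, Rb_subZ T.grp hρ, Rb_smulZ, smul_add, smul_comm _ (2 * I),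
    smul_smul (((t ^ 22)⁻¹ : ℝ) : ℂ) ((t ^ 22 : ℝ) : ℂ), s', one_smul]
  module

end Ks

theorem ks_rowZ (c : CtxZ D) : T3Z c → L1Z c → KTZ c → KSZ c := fun T l kt =>
  ⟨fun _ _ _ hρ hg hφ hs => Ks.faceZ T l kt hρ hg hφ hs,
    fun _ _ _ hρ hg hφ hs => Ks.slabZ T l kt hρ hg hφ hs⟩

end

end Vale.Agent.P352X.BX
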