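import Vale.Agent.P352X.R.BB.Kt
import Vale.Agent.P352Z.P352X.R.BB.KtA

open Vale.Agent.P352G

/-!
# P352X, row BB.kt: the covariant part of `K` on thin slabs
-/

set_option linter.all false

open MeasureTheory Filter Topology Set
open scoped SchwartzMap ComplexConjugate ENNReal ContDiff

namespace Vale.Agent.P352X.BX

open Vale.Agent.P352 Vale.Agent.P352.GF Vale.Agent.P352.BW Vale.Agent.P352X.KDa
open Vale.Agent.P352.H755 Vale.Agent.P352X.Ap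
open UniformSpace (Completion)
open Complex (I)

noncomputable section

variable {D : Type*} [NormedAddCommGroup D] [InnerProductSpace ℂ D] [GrD D] {c : CtxZ D}

namespace Ktp

/-! ## small `p_b` -/

/-- bounds with a gain at small `p_b` -/
def LoZ (c : CtxZ D) (S : Set V) (Φ : Sch → Completion D) : Prop := ∃ (m : ℕ) (C : ℝ), 0 ≤ C ∧
  ∀ f : Sch, tsupport f ⊆ S → ‖Φ f‖ ≤ C * sn m f ∧
    ∀ t : ℝ, 0 < t → t ≤ 1 → ‖c.bt.P {p | al p < t ^ 20} (Φ f)‖ ≤ C * t * sn m f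

variable {S : Set V} {Φ Ψ : Sch → Completion D}

lemma LoZ.add (h : LoZ c S Φ) (h' : LoZ c S Ψ) : LoZ c S fun f => Φ f + Ψ f := by
  obtain ⟨m, C, hC, hb⟩ := h
  obtain ⟨m', C', hC', hb'⟩ := h'
  refine ⟨max m m', C + C', by positivity, fun f hf => ?_⟩
  have h1 := sn_mo (le_max_left m m') f
  have h2 := sn_mo (le_max_right m m') f
  refine ⟨(norm_add_le _ _).trans ?_, fun t h0 ht => ?_⟩
  · nlinarith [(hb f hf).1, (hb' f hf).1]
  · rw [map_add]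
    refine (norm_add_le _ _).trans ?_
    nlinarith [(hb f hf).2 t h0 ht, (hb' f hf).2 t h0 ht, mul_nonneg hC h0.le, mul_nonneg hC' h0.le]

lemma LoZ.smul (a : ℂ) (h : LoZ c S Φ) : LoZ c S fun f => a • Φ f := by
  obtain ⟨m, C, hC, hb⟩ := h
  refine ⟨m, ‖a‖ * C, by positivity, fun f hf => ⟨?_, fun t h0 ht => ?_⟩⟩
  · rw [norm_smul, mul_assoc]
    exact mul_le_mul_of_nonneg_left (hb f hf).1 (norm_nonneg a)
  · rw [map_smul, norm_smul, mul_assoc, mul_assoc, ← mul_assoc C]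
    exact mul_le_mul_of_nonneg_left ((hb f hf).2 t h0 ht) (norm_nonneg a)

lemma LoZ.sub (h : LoZ c S Φ) (h' : LoZ c S Ψ) : LoZ c S fun f => Φ f - Ψ f := by
  simpa only [neg_one_smul, ← sub_eq_add_neg] using h.add (h'.smul (-1))

lemma lo_tauZ (hl : LOWZ c) (h k : V) (A : Sch →L[ℂ] Sch) : LoZ c S fun f => tauZ c h k (A f) := by
  obtain ⟨m, C, hC, hb⟩ := hl
  obtain ⟨C1, m1, hC1, h1⟩ := ST.clm_sn' (A.restrictScalars ℝ) m
  obtain ⟨C2, m2, hC2, h2⟩ := ST.clm_sn_c (tauZ c h k ∘L A)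
  refine ⟨max m1 m2, C * ‖h‖ * ‖k‖ * C1 + C2, by positivity, fun f _ => ?_⟩
  have a1 := sn_mo (le_max_left m1 m2) f
  have a2 := sn_mo (le_max_right m1 m2) f
  have a3 := h1 f
  have a4 := h2 f
  rw [← Api4.sn_eq, ← Api4.sn_eq] at a3
  rw [← Api4.sn_eq] at a4
  have a5 := sn_nn m1 f
  have a6 := sn_nn m2 f
  have a7 : 0 ≤ C * ‖h‖ * ‖k‖ * C1 := by positivity
  refine ⟨a4.trans (by nlinarith), fun t h0 ht => ?_⟩
  have a8 := (hb h k (A f) (t ^ 20) (by positivity)).1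
  have a9 : Real.sqrt (t ^ 20) ≤ t := Real.sqrt_le_iff.2 ⟨h0.le,
    pow_le_pow_of_le_one h0.le ht (by norm_num)⟩
  beta_reduce
  rw [tau_applyZ]
  calc _ ≤ C * t * ‖h‖ * ‖k‖ * (C1 * sn (max m1 m2) f) := a8.trans (by
        gcongr
        · exact sn_nn _ _
        · exact a3.trans (mul_le_mul_of_nonneg_left a1 hC1))
    _ ≤ _ := by nlinarith [mul_nonneg (mul_nonneg hC2 h0.le) (a5.trans a1)]

lemma lo_KZ (t : T3Z c) (hr : RATEZ c) (b1 : ℝ) {b2 : ℝ} (hb : b2 < 0) (h k : V) :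
    LoZ c {z | b1 ≤ be z ∧ be z ≤ b2} fun f => gen c.SK (tauZ c h k f) := by
  obtain ⟨m, C, hC, h1⟩ := hr b1 b2 hb
  obtain ⟨m', C', h2⟩ := t.kd.slab b1 b2 (.inl hb)
  refine ⟨max m m', (C + |C'|) * ‖h‖ * ‖k‖, by positivity, fun f hf => ?_⟩
  have a1 := sn_mo (le_max_left m m') f
  have a2 := sn_mo (le_max_right m m') f
  have a3 := sn_nn m f
  have a4 := sn_nn m' f
  have a5 := abs_nonneg C'
  beta_reduce
  rw [tau_applyZ]
  refine ⟨(h2 h k f hf).2.2.1.trans ?_, fun t h0 ht => (h1 h k f t hf h0 ht).trans ?_⟩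
  · gcongr
    linarith [le_abs_self C']
  · calc _ ≤ (C + |C'|) * t * ‖h‖ * ‖k‖ * sn (max m m') f := by
          gcongr
          linarith
      _ = _ := by ring

lemma lo_KSZ (t : T3Z c) (hl : LOWZ c) (hr : RATEZ c) (b1 : ℝ) {b2 : ℝ} (hb : b2 < 0) (h k : V) :
    LoZ c {z | b1 ≤ be z ∧ be z ≤ b2} (KSZ c h k) := by
  have hM : ∀ i, LoZ c {z | b1 ≤ be z ∧ be z ≤ b2} fun f =>
      gen (Mi c.Q i) (tauZ c h k (xS i f)) := fun i => by
    simp only [(gn_MZ t.gen i h k _).gen_eq]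
    exact (((lo_tauZ hl h k (MS i ∘L xS i)).sub (lo_tauZ hl _ k (xS i))).sub
      (lo_tauZ hl h _ (xS i))).smul I
  have hP : LoZ c {z | b1 ≤ be z ∧ be z ≤ b2} fun f => gen (Pa c.Q) (tauZ c h k (qS f)) := by
    simp only [(gn_PZ t.gen h k _).gen_eq]
    exact (lo_tauZ hl h k (dS va ∘L qS)).smul I
  have := ((lo_KZ t hr b1 hb h k).sub (((hM 0).add (hM 1)).smul 2)).add hP
  unfold KSZ K3Z
  simpa only [Fin.sum_univ_two] using this

/-! ## wide averages along `b` -/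

lemma av_eqZ {ρ : ℝ → ℝ} (hρ : Tst ρ) (s : ℝ) (v : Completion D) : SN.Bd (mul ρ s) ∧
    ∫ u, (ρ u : ℂ) • Pb c.Q (u / s) v = c.bt.Phi (mul ρ s) v := by
  have := c.bt.smear SN.isPair_mdot (y := fun u : ℝ => (u / s) • vb) (by fun_prop) (m := volume)
    (u := cx ρ) (cs_int (dc_cx hρ)) v
  have e : (fun p => ∫ u, cx ρ u * SN.ch (fun p y : V => mdot p y) ((u / s) • vb) p) = mul ρ s := by
    funext p
    simp only [mul, ft1, SN.ch, md_smul, md_vb']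
    congr 1
    funext u
    congr 4
    ring
  rw [e] at this
  exact this

lemma av_leZ {ρ : ℝ → ℝ} (hρ : Tst ρ) (h : LoZ c S Φ) : ∃ (m : ℕ) (C : ℝ), 0 ≤ C ∧
    ∀ f : Sch, tsupport f ⊆ S → ∀ t : ℝ, 0 < t → t ≤ 1 →
      ‖c.bt.Phi (mul ρ (t ^ 22)) (Φ f)‖ ≤ C * t * sn m f := by
  obtain ⟨m, C, hC, hb⟩ := h
  obtain ⟨C1, hC1, h1⟩ := mul_bd hρ
  refine ⟨m, 2 * (C1 * C), by positivity, fun f hf t h0 ht => ?_⟩
  have hB := (av_eqZ (c := c) hρ (t ^ 22) 0).1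
  have hA := meas_lt (t ^ 20)
  have e : Φ f = c.bt.P {p | al p < t ^ 20} (Φ f) + c.bt.P {p | al p < t ^ 20}ᶜ (Φ f) := by
    rw [SN.Calc.P_compl hA, add_sub_cancel]
  have a1 := c.bt.norm_le hB hC1 (c.bt.P {p | al p < t ^ 20} (Φ f))
    (.of_forall fun p => (h1 t h0 ht p).1)
  have a2 := c.bt.norm_le hB (mul_nonneg hC1 h0.le) (c.bt.P {p | al p < t ^ 20}ᶜ (Φ f)) (by
    rw [SN.Calc.nu_P hA.compl]
    exact (ae_restrict_mem hA.compl).mono fun p hp => (h1 t h0 ht p).2 hp)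
  have a3 := mul_le_mul_of_nonneg_left ((hb f hf).2 t h0 ht) hC1
  have a4 := mul_le_mul_of_nonneg_left ((SN.Calc.norm_P_le (C := c.bt.toCalc) hA.compl _).trans
    (hb f hf).1) (mul_nonneg hC1 h0.le)
  rw [e, map_add]
  refine (norm_add_le _ _).trans ?_
  linarith

lemma rb_scZ (g : GRPZ c) {ρ : ℝ → ℝ} (hρ : Tst ρ) {s : ℝ} (hs : 0 < s) (a : ℂ)
    (v : Completion D) :
    RbZ c ρ (a • Usc c.Q 1 s v) = a • Usc c.Q 1 s (c.bt.Phi (mul ρ s) v) := by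
  have hi := (g.ugPb.scale s⁻¹).integrable_smul (cs_int (dc_cx hρ)) v
  simp only [← div_eq_inv_mul] at hi
  rw [← (av_eqZ hρ s v).2, ← (Usc c.Q 1 s).integral_comp_comm hi, ← integral_smul, RbZ]
  congr 1
  funext u
  rw [map_smul, pb_scZ g hs, map_smul, smul_comm]

lemma KS_sumZ (G : GENZ c) (h k : V) {ι : Type*} (J : Finset ι) {f : ι → Sch}
    (d : ∀ j, Dm c.SK (tauZ c h k (f j))) :
    KSZ c h k (∑ j ∈ J, f j) = ∑ j ∈ J, KSZ c h k (f j) := by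
  classical
  induction J using Finset.induction_on with
  | empty => simpa using KS_zeroZ h k
  | insert j J hj ih =>
    rw [Finset.sum_insert hj, Finset.sum_insert hj, KS_addZ G h k (d j) (by
      rw [map_sum]
      exact Dm.sum _ fun j _ => d j), ih]

/-- the estimate for eigenvectors of the scalings -/
theorem mainZ (t : T3Z c) (hl : LOWZ c) (hr : RATEZ c) {ρ φ : ℝ → ℝ} {g : P3 → ℝ} (hρ : Tst ρ)
    (hg : Tst g) (hφ : Tst φ) (hn : tsupport φ ⊆ Iio 0) (h k : V) : ∃ C : ℝ, 0 ≤ C ∧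
    ∀ τ ∈ Ioc (0 : ℝ) 1, ∀ a b : ℝ, 0 < a → 0 < b → scp 1 (τ ^ 22) h = a • h →
      scp 1 (τ ^ 22) k = b • k →
      ‖RbZ c ρ (KtZ c h k (pr g (dil (τ ^ 22) φ)))‖ ≤ C * τ * (τ ^ 22 / (a * b)) := by
  obtain ⟨b1, b2, hb, hs⟩ := ex_slab hφ hn
  obtain ⟨m, C, hC, h1⟩ := av_leZ hρ (lo_KSZ t hl hr b1 hb h k)
  obtain ⟨C', hC', h2⟩ := cells hg hφ m
  obtain ⟨_, _, h3⟩ := t.kd.slab b1 b2 (.inl hb)
  refine ⟨C * C' * C', by positivity, fun τ hτ a b ha hb' eh ek => ?_⟩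
  have h0 := hτ.1
  have hs0 : 0 < τ ^ 22 := by positivity
  obtain ⟨J, y, u, u1, u2, u3, u4⟩ := h2 (τ ^ 11) ⟨by positivity, pow_le_one₀ h0.le hτ.2⟩
  have u5 : ∀ j, tsupport (u j) ⊆ {z | b1 ≤ be z ∧ be z ≤ b2} := fun j z hz => hs (u1 j hz)
  have d1 : ∀ j, Dm c.SK (tauZ c h k (u j)) := fun j => tau_applyZ (c := c) h k _ ▸ (h3 h k _ (u5 j)).1
  have d2 : ∀ j, Dm c.SK (tauZ c h k (ST.tsl (tv (y j)) (u j))) := fun j =>
    tau_applyZ (c := c) h k _ ▸ (h3 h k _ fun z hz => by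
      simpa using u5 j (tsupport_tsl _ _ hz)).1
  have hF := test_pr hg (tst_dil hφ hs0.ne')
  have hq : Real.sqrt (τ ^ 22) = τ ^ 11 := by
    rw [show τ ^ 22 = (τ ^ 11) ^ 2 by ring, Real.sqrt_sq (by positivity)]
  have hB := (av_eqZ (c := c) hρ (τ ^ 22) 0).1
  rw [← ev_sch hF, Kt_evZ, KS_scZ t.grp t.gen hs0 ha.ne' hb'.ne' eh ek
    (f := ∑ j ∈ J, ST.tsl (tv (y j)) (u j)) (fun z => by
      rw [sch_apply hF, SchwartzMap.sum_apply]
      simp only [ST.tsl_apply, u4, pr, pl, dil, al_scp, be_scp, tx_scp, hq, one_mul,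
        mul_div_cancel_left₀ _ hs0.ne']) (by
      rw [map_sum]
      exact Dm.sum _ fun j _ => d2 j), rb_scZ t.grp hρ hs0, norm_smul, Usc, t.grp.ug_norm,
    KS_sumZ t.gen h k J d2, map_sum, Complex.norm_real, Real.norm_of_nonneg (by positivity)]
  have h4 : ‖∑ j ∈ J, c.bt.Phi (mul ρ (τ ^ 22)) (KSZ c h k (ST.tsl (tv (y j)) (u j)))‖ ≤
      J.card * (C * τ * C') := by
    rw [← nsmul_eq_mul, ← Finset.sum_const]
    refine norm_sum_le_of_le _ fun j hj => ?_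
    rw [KS_tslZ t.grp t.gen h k _ (d1 j), c.bt.Phi_U SN.isPair_mdot _ hB, Ut, t.grp.ug_norm]
    exact (h1 _ (u5 j) τ h0 hτ.2).trans (mul_le_mul_of_nonneg_left (u2 j hj) (by positivity))
  calc _ ≤ τ ^ 22 * τ ^ 22 / (a * b) * (J.card * (C * τ * C')) := by gcongr
    _ = C * C' * (J.card * (τ ^ 11) ^ 2) * τ * (τ ^ 22 / (a * b)) := by ring
    _ ≤ _ := by gcongr

end Ktp

open Ktp in
/-- **row BB.kt** -/
theorem kt_rowZ (c : CtxZ D) : T3Z c → LOWZ c → RATEZ c → KTZ c := by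
  intro t hl hr ρ g φ hρ hg hφ hn
  obtain ⟨C1, a1, h1⟩ := mainZ t hl hr hρ hg hφ hn va va
  obtain ⟨C2, a2, h2⟩ := mainZ t hl hr hρ hg hφ hn va vb
  obtain ⟨C3, a3, h3⟩ := mainZ t hl hr hρ hg hφ hn vb va
  obtain ⟨C4, a4, h4⟩ := mainZ t hl hr hρ hg hφ hn vb vb
  refine ⟨C1 + C2 + C3 + C4, fun τ hτ => ?_⟩
  have h0 := hτ.1
  have hs : 0 < τ ^ 22 := by positivity
  have ea : scp 1 (τ ^ 22) va = (1 : ℝ) • va := null_ext (by simp) (by simp) (by simp)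
  have eb : scp 1 (τ ^ 22) vb = τ ^ 22 • vb := null_ext (by simp) (by simp) (by simp)
  have b1 := h1 τ hτ _ _ one_pos one_pos ea ea
  have b2 := h2 τ hτ _ _ one_pos hs ea eb
  have b3 := h3 τ hτ _ _ hs one_pos eb ea
  have b4 := mul_le_mul_of_nonneg_left (h4 τ hτ _ _ hs hs eb eb) hs.le
  rw [one_mul, div_one] at b1
  rw [one_mul, div_self hs.ne', mul_one] at b2
  rw [mul_one, div_self hs.ne', mul_one] at b3
  rw [show τ ^ 22 * (C4 * τ * (τ ^ 22 / (τ ^ 22 * τ ^ 22))) = C4 * τ by field_simp] at b4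
  refine ⟨b1.trans ?_, b2.trans ?_, b3.trans ?_, b4.trans ?_⟩ <;> gcongr <;> linarith

end

end Vale.Agent.P352X.BX
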