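import Vale.Agent.P352X.R.BB.L1
import Vale.Agent.P352Z.P352X.R.BB.Base

open Vale.Agent.P352G

/-!
# P352X, row BB.l1: averages along `b` of thin slabs
-/

set_option linter.all false

open MeasureTheory Filter Topology Set
open scoped SchwartzMap ComplexConjugate ENNReal ContDiff

namespace Vale.Agent.P352X.BX

open Vale.Agent.P352 Vale.Agent.P352.GF Vale.Agent.P352.BW Vale.Agent.P352.H246
open Vale.Agent.P352.H496 Vale.Agent.P352.H755 Vale.Agent.P352.H15 Vale.Agent.P352X.Ap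
open UniformSpace (Completion)

noncomputable section

variable {D : Type*} [NormedAddCommGroup D] [InnerProductSpace ℂ D] [GrD D] {c : CtxZ D}
  {g : P3 → ℝ} {φ ρ : ℝ → ℝ}

/-- the average along `b` is the convolution of the profiles -/
theorem Rb_TPZ (G : GRPZ c) (hρ : Tst ρ) (hg : Tst g) (hφ : Tst φ) (h k : V) :
    RbZ c ρ (TPZ c h k g φ) =
      TLZ c h k (sch fun z => (g (pl z) * ∫ u, ρ u * φ (be z - u) : ℝ)) := by
  have hD : Dc fun q : ℝ × V => (ρ q.1 : ℂ) * pr g φ (q.2 - q.1 • vb) := by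
    have := cs_cle ((ContinuousLinearEquiv.refl ℝ ℝ).skewProd (ContinuousLinearEquiv.refl ℝ V)
      (-(ContinuousLinearMap.id ℝ ℝ).smulRight vb)) (cs_prod (dc_cx hρ) (dc_pr hg hφ))
    rw [dc_iff]
    simpa [ContinuousLinearEquiv.skewProd_apply, sub_eq_add_neg] using this
  have e := (Api4.par volume hD (TLZ c h k)).2.2
  have e1 : (fun z => ∫ u, (ρ u : ℂ) * pr g φ (z - u • vb)) =
      fun z => ((g (pl z) * ∫ u, ρ u * φ (be z - u) : ℝ) : ℂ) := by
    funext z
    rw [← integral_const_mul, ← integral_complex_ofReal]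
    congr 1
    funext u
    rw [pr_sub_vb]
    push_cast
    ring
  simp only [e1] at e
  rw [e, RbZ]
  congr 1
  funext u
  have ht : IsTest fun z => pr g φ (z - u • vb) := by
    simpa only [sub_eq_add_neg] using test_tsl (test_pr hg hφ) (-(u • vb))
  rw [Pb, TPZ, ut_T'Z G _ h k (test_pr hg hφ), Tv_schZ ht, Ap.sch_cmul _ ht, map_smul]

/-- the two profiles can be swapped -/
theorem Rb_swapZ (G : GRPZ c) (hρ : Tst ρ) (hg : Tst g) (hφ : Tst φ) (h k : V) :
    RbZ c ρ (TPZ c h k g φ) = RbZ c φ (TPZ c h k g ρ) := by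
  rw [Rb_TPZ G hρ hg hφ, Rb_TPZ G hφ hg hρ]
  congr 2
  funext z
  rw [← integral_sub_left_eq_self (fun u => ρ u * φ (be z - u)) volume (be z)]
  simp only [sub_sub_cancel, mul_comm]

theorem Rb_dltZ {s : ℝ} (hs : 0 < s) (φ : ℝ → ℝ) (v : Completion D) :
    RbZ c (dlt s φ) v = ∫ t, (φ t : ℂ) • Pb c.Q (s * t) v := by
  have := Measure.integral_comp_mul_left (fun u => ((φ (u / s) : ℝ) : ℂ) • Pb c.Q u v) s
  simp only [mul_div_cancel_left₀ _ hs.ne'] at this
  rw [this, abs_of_pos (inv_pos.2 hs), ← integral_smul, RbZ]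
  congr 1
  funext u
  rw [← Complex.coe_smul, smul_smul, ← Complex.ofReal_mul, dlt, div_eq_inv_mul]

theorem Rb_dlt_limZ (G : GRPZ c) (hφ : Tst φ) (v : Completion D) :
    Tendsto (fun s => RbZ c (dlt s φ) v) (𝓝[>] 0) (𝓝 (((∫ t, φ t : ℝ) : ℂ) • v)) := by
  have e : ((∫ t, φ t : ℝ) : ℂ) • v = ∫ t, (φ t : ℂ) • Pb c.Q (0 * t) v := by
    simp only [zero_mul, G.ugPb.zero', ContinuousLinearMap.one_apply, integral_smul_const,
      integral_complex_ofReal]
  rw [e]
  refine Tendsto.congr' (eventually_mem_nhdsWithin.mono fun s hs => (Rb_dltZ hs φ v).symm)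
    (tendsto_nhdsWithin_of_tendsto_nhds ?_)
  refine (continuous_of_dominated (bound := fun t => ‖(φ t : ℂ)‖ * ‖v‖) (fun s => ?_)
    (fun s => Eventually.of_forall fun t => ?_) ((cs_int (dc_cx hφ)).norm.mul_const _)
    (Eventually.of_forall fun t => ?_)).tendsto 0
  · exact ((dc_cx hφ).1.continuous.smul (G.ugPb.cont' (continuous_const.mul continuous_id)
      continuous_const)).aestronglyMeasurable
  · rw [norm_smul, G.ugPb.nrm]
  · exact (G.ugPb.cont' (continuous_id.mul continuous_const) continuous_const).const_smul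
      (φ t : ℂ)

theorem l1_rowZ (c : CtxZ D) : T3Z c → L1Z c := fun t =>
  ⟨fun h k ρ g hρ hg => ⟨‖TPZ c h k g ρ‖, fun φ hφ => by
    rw [Rb_swapZ t.grp hρ hg hφ, mul_comm]
    exact Rb_normZ t.grp φ _⟩,
  fun h k ρ g φ hρ hg hφ => (Rb_dlt_limZ t.grp hφ _).congr' (eventually_mem_nhdsWithin.mono
    fun s hs => Rb_swapZ t.grp (tst_dlt hφ (ne_of_gt hs)) hg hρ h k)⟩

end

end Vale.Agent.P352X.BX
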