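import Vale.Agent.P352X.R.BB.Flux
import Vale.Agent.P352Z.P352X.R.BB.Spec

open Vale.Agent.P352G

/-!
# P352X, row BB.flux: thin fluxes against the form domain of `P_b` (helper34)
-/

set_option linter.all false

open MeasureTheory Filter Topology
open scoped SchwartzMap ComplexConjugate ENNReal ContDiff Real

namespace Vale.Agent.P352X.BX

open Vale.Agent.P352 Vale.Agent.P352.GF Vale.Agent.P352.BW Vale.Agent.P352.H246
open Vale.Agent.P352.H496 Vale.Agent.P352.H755 Vale.Agent.P352.H15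
open UniformSpace (Completion)
open Complex (I)

noncomputable section

namespace Flux

variable {D : Type*} [NormedAddCommGroup D] [InnerProductSpace ℂ D] [GrD D] {c : CtxZ D}

/-- TWO in integrated form -/
theorem two_intZ (h : TWOZ c) : ∃ C : ℝ, 0 ≤ C ∧ ∀ (h k : V) (f : Fn) (m F : V → ℝ), IsTest f →
    Measurable m → (∀ p, 0 ≤ m p) → Integrable F → (∀ p, 0 ≤ F p) →
    (∀ p ∈ Fc, m p * (nn p h * nn p k * ‖ft f p‖ ^ 2) ≤ F p) →
    ∫⁻ p, ENNReal.ofReal (m p) ∂c.nu (c.Tv (hk h k f)) ≤ ENNReal.ofReal (C * ∫ p, F p) := by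
  obtain ⟨C, C0, hC⟩ := h
  refine ⟨C, C0, fun h k f m F hf hm m0 hF F0 hb => ?_⟩
  have cf := cont_ft hf
  have cn : ∀ h : V, Continuous fun p => nn p h := fun h => by
    have := (mdL h).continuous
    simp only [nn]
    exact (continuous_const.mul (this.pow 2)).sub (cont_mu.mul continuous_const)
  refine (lintegral_mono' (hC h k f hf) le_rfl).trans ?_
  have cm : Continuous fun p => C * nn p h * nn p k * ‖ft f p‖ ^ 2 :=
    ((continuous_const.mul (cn h)).mul (cn k)).mul (cf.norm.pow 2)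
  refine (lintegral_withDensity_le_lintegral_mul _ cm.measurable.ennreal_ofReal _).trans ?_
  calc _ ≤ ∫⁻ p in Fc, ENNReal.ofReal (C * F p) := by
        refine setLIntegral_mono' meas_Fc fun p hp => ?_
        rw [Pi.mul_apply, mul_comm, ← ENNReal.ofReal_mul (m0 p)]
        refine ENNReal.ofReal_le_ofReal (le_trans (le_of_eq ?_)
          (mul_le_mul_of_nonneg_left (hb p hp) C0))
        ring
    _ ≤ _ := setLIntegral_le_lintegral _ _
    _ = _ := by
        rw [← ofReal_integral_eq_lintegral_ofReal (hF.const_mul C)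
          (.of_forall fun p => mul_nonneg C0 (F0 p)), integral_const_mul]

/-- PROD: weighted norms of thin slabs -/
theorem thinZ (h : TWOZ c) {g : P3 → ℂ} {φ : ℝ → ℂ} (hg : Dc g) (hφ : Dc φ) : ∃ K : ℝ, 0 ≤ K ∧
    ∀ (h k : V) (ψ : ℝ → ℂ) (s l M : ℝ) (m : V → ℝ), 0 < s → 0 ≤ M → Dc ψ →
      (∀ t, ‖ft1 ψ t‖ = l * s * ‖ft1 φ (s * t)‖) → Measurable m → (∀ p, 0 ≤ m p) →
      (∀ p ∈ Fc, m p * (nn p h * nn p k) * (l ^ 2 * s) ≤
        M ^ 2 * ((1 + be p ^ 2) ^ 2 * (1 + (s * al p) ^ 2) ^ 2)) →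
      ∫⁻ p, ENNReal.ofReal (m p) ∂c.nu (c.Tv (hk h k (pf g ψ))) ≤ ENNReal.ofReal ((K * M) ^ 2) := by
  obtain ⟨C, C0, hC⟩ := two_intZ h
  have i3 := int3 hg
  have i1 := int1 hφ
  set G := ∫ k : P3, (1 + k.1 ^ 2) ^ 2 * ‖ft3 g k‖ ^ 2
  set F := ∫ t : ℝ, (1 + t ^ 2) ^ 2 * ‖ft1 φ t‖ ^ 2 with hF
  have G0 : 0 ≤ G := integral_nonneg fun _ => by positivity
  have F0 : 0 ≤ F := integral_nonneg fun _ => by positivity
  refine ⟨√(C * G * F), Real.sqrt_nonneg _, fun h k ψ s l M m hs M0 hψ e hm m0 hb => ?_⟩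
  have j1 := (i1.comp_mul_left' hs.ne').const_mul s
  have j := integrable_pm_al (i3.const_mul (M ^ 2)) j1
  refine (hC h k _ m _ (Ap.test_pf hg hψ) hm m0 j (fun p => by positivity) fun p hp => ?_).trans_eq ?_
  · rw [ft_pf, norm_mul, e]
    have := mul_le_mul_of_nonneg_right (hb p hp)
      (show 0 ≤ s * ‖ft3 g (pm p)‖ ^ 2 * ‖ft1 φ (s * al p)‖ ^ 2 by positivity)
    refine le_trans (le_of_eq ?_) (this.trans_eq ?_)
    · ring
    · simp only [pm_1]
      ring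
  · rw [integral_pm_al (fun k : P3 => M ^ 2 * ((1 + k.1 ^ 2) ^ 2 * ‖ft3 g k‖ ^ 2))
      (fun t => s * ((1 + (s * t) ^ 2) ^ 2 * ‖ft1 φ (s * t)‖ ^ 2)), integral_const_mul,
      integral_const_mul, Measure.integral_comp_mul_left
        (fun t : ℝ => (1 + t ^ 2) ^ 2 * ‖ft1 φ t‖ ^ 2), mul_pow, Real.sq_sqrt (by positivity),
      abs_of_pos (inv_pos.2 hs), smul_eq_mul, ← hF, mul_inv_cancel_left₀ hs.ne']
    congr 1
    ring

/-- weighted bounds for the boost field -/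
theorem tx_bdZ (h : TWOZ c) {g : P3 → ℝ} {φ : ℝ → ℝ} (hg : Tst g) (hφ : Tst φ) : ∃ K : ℝ, 0 ≤ K ∧
    ∀ (h : V) (s M B : ℝ) (m : V → ℝ) (v : Completion D), 0 < s → 0 ≤ M → 0 ≤ B → Measurable m →
      (∀ p, 0 < m p) → (∀ p ∈ Fc, m p * nn p h * s * (2 * be p ^ 2 + 2 * (s * al p) ^ 2) ≤
        M ^ 2 * ((1 + be p ^ 2) ^ 2 * (1 + (s * al p) ^ 2) ^ 2) ∧ 0 ≤ nn p h) →
      ∫⁻ p, ENNReal.ofReal (m p)⁻¹ ∂c.nu v ≤ ENNReal.ofReal (B ^ 2) →
      ‖inner ℂ (TxZ c h g (dil s φ)) v‖ ≤ K * M * B := by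
  obtain ⟨K1, a1, b1⟩ := thinZ h (Ap.dc_cx (Ap.tst_ap 1 hg)) (Ap.dc_cx hφ)
  obtain ⟨K2, a2, b2⟩ := thinZ h (Ap.dc_cx hg) (Ap.dc_cx (tst_tm hφ))
  refine ⟨K1 + K2, by positivity, fun h s M B m v hs M0 B0 hm m0 hb hv => ?_⟩
  have td := Ap.tst_dil hφ hs.ne'
  have k1 := pair c.bt.toCalc hm m0 (by positivity) B0 (b1 h va (cx (dil s φ)) s 1 M m hs M0
    (Ap.dc_cx td) (fun t => by
      rw [ft1_dil hs, norm_mul, Complex.norm_real, Real.norm_of_nonneg hs.le, one_mul]; rfl) hm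
    (fun p => (m0 p).le) fun p hp => le_trans (by
      have := mul_nonneg (mul_nonneg (mul_nonneg (m0 p).le (hb p hp).2) hs.le) (sq_nonneg (s * al p))
      rw [nn_va]
      nlinarith) (hb p hp).1) hv
  have k2 := pair c.bt.toCalc hm m0 (by positivity) B0 (b2 h vb (cx (tm (dil s φ))) s s M m hs M0
    (Ap.dc_cx (tst_tm td)) (ft1_tm hs φ) hm (fun p => (m0 p).le) fun p hp => le_trans (by
      have := mul_nonneg (mul_nonneg (mul_nonneg (m0 p).le (hb p hp).2) hs.le) (sq_nonneg (be p))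
      rw [nn_vb]
      nlinarith) (hb p hp).1) hv
  rw [TxZ, TPZ, TPZ, inner_sub_left, pr_eq, pr_eq]
  exact (norm_sub_le _ _).trans ((add_le_add k1 k2).trans_eq (by ring))

lemma qb_intZ (h : BASZ c) {v : Completion D} {N : ℝ} (hv : QbZ c v N) :
    ∫⁻ p, ENNReal.ofReal (1 + |al p|) ∂c.nu v ≤ ENNReal.ofReal ((2 * N) ^ 2) := by
  have N0 := (norm_nonneg _).trans hv.1
  calc _ = ∫⁻ p, 1 + ENNReal.ofReal (al p) ∂c.nu v := by
        refine lintegral_congr_ae ((h.cone v).mono fun p hp => ?_)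
        have := ((cone_iff p).1 hp).1
        simp only
        rw [abs_of_nonneg this, ENNReal.ofReal_add zero_le_one this, ENNReal.ofReal_one]
    _ = ENNReal.ofReal (‖v‖ ^ 2) + c.qb v := by
        rw [lintegral_add_left measurable_const, lintegral_one, ← c.bt.nu_univ, ofReal_measureReal]
        rfl
    _ ≤ ENNReal.ofReal (N ^ 2) + ENNReal.ofReal (N ^ 2) :=
        add_le_add (ENNReal.ofReal_le_ofReal (pow_le_pow_left₀ (norm_nonneg _) hv.1 2)) hv.2
    _ ≤ _ := by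
        rw [← ENNReal.ofReal_add (by positivity) (by positivity)]
        exact ENNReal.ofReal_le_ofReal (by nlinarith)

theorem face_bdZ (h : TWOZ c) {g : P3 → ℝ} {φ : ℝ → ℝ} (hg : Tst g) (hφ : Tst φ) : ∃ K : ℝ, 0 ≤ K ∧
    ∀ (s B : ℝ) (v : Completion D), 0 < s → 0 ≤ B →
      ∫⁻ p, ENNReal.ofReal (ms s p)⁻¹ ∂c.nu v ≤ ENNReal.ofReal (B ^ 2) →
      ‖inner ℂ (TxZ c vb g (dil s φ)) v‖ ≤ K * B := by
  obtain ⟨K, a, b⟩ := tx_bdZ h hg hφ
  refine ⟨K * 4, by positivity, fun s B v hs B0 hv => b vb s 4 B _ v hs (by norm_num) B0 (ms_meas s)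
    (ms_pos hs) (fun p hp => ⟨?_, by rw [nn_vb]; positivity⟩) hv⟩
  have t0 := ((mem_Fc' p).1 hp).1
  refine le_trans (mul_le_mul_of_nonneg_right ?_ (by positivity)) (poly _ _ (mul_pos hs t0).le)
  have h1 : (1 + al p)⁻¹ * al p ≤ 1 := by
    rw [inv_mul_le_iff₀ (by positivity)]
    linarith
  have h2 : 0 ≤ (1 + al p)⁻¹ * al p := by positivity
  have h3 := mul_le_mul_of_nonneg_left h1 (mul_pos hs t0).le
  have : ms s p * nn p vb * s =
      2 * (s * al p * ((1 + al p)⁻¹ * al p) + ((1 + al p)⁻¹ * al p) ^ 2) := by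
    rw [ms, nn_vb, abs_of_pos t0]
    field_simp
  nlinarith

end Flux

open Flux in
theorem flux_rowZ {D : Type*} [NormedAddCommGroup D] [InnerProductSpace ℂ D] [GrD D] (c : CtxZ D) :
    T3Z c → FLUXZ c := fun t => by
  refine ⟨fun i g φ hg hφ => ?_, fun g φ hg hφ => ?_, fun g φ v N hg hφ hv => ?_⟩
  · obtain ⟨K, a, b⟩ := tx_bdZ t.two hg hφ
    refine ⟨K * 4 * 2, fun s hs v N hv => ?_⟩
    have N0 := (norm_nonneg _).trans hv.1
    refine (b (ex i) s (4 * √s) (2 * N) (fun p => (1 + |al p|)⁻¹) v hs.1 (by positivity)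
      (by positivity) (by fun_prop) (fun p => by positivity) (fun p hp => ?_)
      (by simpa only [inv_inv] using qb_intZ t.bas hv)).trans_eq (by ring)
    obtain ⟨t0, m0⟩ := (mem_Fc' p).1 hp
    have a0 := ((mem_Fc p).1 hp).1
    have s0 := hs.1
    have e := mu_eq p
    have q := sq_le_d2 (tx p) i
    refine ⟨?_, by rw [nn_ex]; positivity⟩
    have h1 : (1 + |al p|)⁻¹ * nn p (ex i) ≤ 4 * be p := by
      rw [abs_of_pos t0, inv_mul_le_iff₀ (by positivity), nn_ex]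
      nlinarith
    have h2 : 4 * be p * (2 * be p ^ 2 + 2 * (s * al p) ^ 2) ≤
        4 ^ 2 * ((1 + be p ^ 2) ^ 2 * (1 + (s * al p) ^ 2) ^ 2) := by
      set a := be p
      set u := s * al p
      have h1 : a ≤ 1 + a ^ 2 := by nlinarith [sq_nonneg (a - 1)]
      have h2 : a ^ 2 + u ^ 2 ≤ (1 + a ^ 2) * (1 + u ^ 2) ^ 2 := by
        nlinarith [sq_nonneg a, sq_nonneg u, sq_nonneg (u ^ 2),
          mul_nonneg (sq_nonneg a) (sq_nonneg u), mul_nonneg (sq_nonneg (u ^ 2)) (sq_nonneg a)]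
      have h3 := mul_le_mul h1 h2 (by positivity) (by positivity)
      have : 0 ≤ (1 + a ^ 2) ^ 2 * (1 + u ^ 2) ^ 2 := by positivity
      nlinarith
    rw [mul_pow 4, Real.sq_sqrt s0.le]
    calc _ ≤ 4 * be p * s * (2 * be p ^ 2 + 2 * (s * al p) ^ 2) := by gcongr
      _ = s * (4 * be p * (2 * be p ^ 2 + 2 * (s * al p) ^ 2)) := by ring
      _ ≤ _ := (mul_le_mul_of_nonneg_left h2 s0.le).trans_eq (by ring)
  · obtain ⟨K, a, b⟩ := face_bdZ t.two hg hφ
    refine ⟨K * 2, fun s hs v N hv => ?_⟩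
    have N0 := (norm_nonneg _).trans hv.1
    exact (b s (2 * N) v hs.1 (by positivity) ((lintegral_mono fun p =>
      ENNReal.ofReal_le_ofReal (ms_le hs.1 p)).trans (qb_intZ t.bas hv))).trans_eq (by ring)
  · obtain ⟨K, a, b⟩ := face_bdZ t.two hg hφ
    have l : Tendsto (fun s => ∫⁻ p, ENNReal.ofReal (ms s p)⁻¹ ∂c.nu v) (𝓝[>] 0)
        (𝓝 (∫⁻ _, 0 ∂c.nu v)) := by
      refine tendsto_lintegral_filter_of_dominated_convergence
        (fun p => ENNReal.ofReal (1 + |al p|))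
        (.of_forall fun s => (ms_meas s).inv.ennreal_ofReal) ?_
        ((qb_intZ t.bas hv).trans_lt ENNReal.ofReal_lt_top).ne (.of_forall fun p => ?_)
      · filter_upwards [self_mem_nhdsWithin] with s hs
        exact .of_forall fun p => ENNReal.ofReal_le_ofReal (ms_le hs p)
      · rw [← ENNReal.ofReal_zero]
        refine ENNReal.tendsto_ofReal (squeeze_zero' (g := fun s => s * (1 + |al p|) ^ 2) ?_ ?_ ?_)
        · filter_upwards [self_mem_nhdsWithin] with s hs using (inv_pos.2 (ms_pos hs p)).le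
        · filter_upwards [self_mem_nhdsWithin] with s hs using ms_le' hs p
        · exact (Continuous.tendsto' (f := fun s : ℝ => s * (1 + |al p|) ^ 2) (by fun_prop) 0 0
            (zero_mul _)).mono_left nhdsWithin_le_nhds
    rw [lintegral_zero] at l
    refine NormedAddGroup.tendsto_nhds_zero.2 fun ε hε => ?_
    have d : 0 < ε / (K + 1) := by positivity
    filter_upwards [self_mem_nhdsWithin, l.eventually (ge_mem_nhds
      (ENNReal.ofReal_pos.2 (pow_pos d 2)))] with s hs h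
    refine (b s _ v hs d.le h).trans_lt ?_
    rw [← mul_div_assoc, div_lt_iff₀ (by positivity)]
    nlinarith

end

end Vale.Agent.P352X.BX
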