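import Vale.Agent.P352X.R.BB.Low
import Vale.Agent.P352Z.P352X.R.BB.Flux

open Vale.Agent.P352G

/-!
# P352X, row BB.low: small light cone momenta (helper34)
-/

set_option linter.all false

open MeasureTheory Filter Topology
open scoped SchwartzMap ComplexConjugate ENNReal ContDiff Real

namespace Vale.Agent.P352X.BX

open Vale.Agent.P352 Vale.Agent.P352.GF Vale.Agent.P352.BW Vale.Agent.P352.H246
open Vale.Agent.P352.H496 Vale.Agent.P352.H755 Vale.Agent.P352.H15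
open UniformSpace (Completion)
open Complex (I)

noncomputable section

namespace Low

variable {D : Type*} [NormedAddCommGroup D] [InnerProductSpace ℂ D] [GrD D] {c : CtxZ D}

theorem stripZ (h : TWOZ c) {q : V → P3} {l : V → ℝ} (hl : Measurable l) (hq : ∀ p, ‖q p‖ ≤ 2 * ‖p‖)
    (pos : ∀ p ∈ Fc, 0 < l p) (i1 : ∀ (g : P3 → ℝ) (φ : ℝ → ℝ), Integrable g → Integrable φ →
      Integrable fun p => g (q p) * φ (l p))
    (i2 : ∀ (g : P3 → ℝ) (φ : ℝ → ℝ), ∫ p, g (q p) * φ (l p) = (∫ y, g y) * ∫ t, φ t) :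
    ∃ (m : ℕ) (C : ℝ), 0 ≤ C ∧ ∀ h k (f : Sch) (σ : ℝ), 0 < σ →
      ‖c.bt.P {p | l p < σ} (c.Tv (hk h k (ev f)))‖ ≤ C * √σ * ‖h‖ * ‖k‖ * sn m f := by
  obtain ⟨C, C0, hC⟩ := Flux.two_intZ h
  obtain ⟨m, A, A0, hA⟩ := ft_decay 4
  set W := ∫ y : P3, ((1 + ‖y‖) ^ 4)⁻¹
  have W0 : 0 ≤ W := integral_nonneg fun _ => by positivity
  refine ⟨m, √(C * W) * (192 * A), by positivity, fun h k f σ hσ => ?_⟩
  have hS : MeasurableSet {p | l p < σ} := measurableSet_lt hl measurable_const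
  have s0 : 0 ≤ sn m f := apply_nonneg _ _
  set K := (192 * A * ‖h‖ * ‖k‖ * sn m f) ^ 2
  have := hC h k (ev f) ({p | l p < σ}.indicator 1) _ ⟨f, rfl⟩ (measurable_one.indicator hS)
    (fun p => Set.indicator_nonneg (fun _ _ => zero_le_one) p)
    (i1 (fun y => K * ((1 + ‖y‖) ^ 4)⁻¹) ((Set.Ioo 0 σ).indicator 1) (int_w.const_mul K)
      ((integrable_indicator_iff measurableSet_Ioo).2 (integrableOn_const (by simp))))
    (fun p => mul_nonneg (by positivity) (Set.indicator_nonneg (fun _ _ => zero_le_one) _))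
    fun p hp => by
      by_cases e : l p < σ
      · rw [Set.indicator_of_mem (show p ∈ {p | l p < σ} from e), Set.indicator_of_mem
          (show l p ∈ Set.Ioo 0 σ from ⟨pos p hp, e⟩), Pi.one_apply, Pi.one_apply, one_mul, mul_one,
          ← div_eq_mul_inv, le_div_iff₀ (by positivity)]
        have h1 : nn p h * nn p k ≤ 48 * ‖h‖ ^ 2 * (1 + ‖p‖) ^ 2 * (48 * ‖k‖ ^ 2 * (1 + ‖p‖) ^ 2) := by
          refine (le_abs_self _).trans ((abs_mul _ _).trans_le ?_)
          refine (mul_le_mul (abs_nn p h) (abs_nn p k) (abs_nonneg _) (by positivity)).trans ?_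
          gcongr <;> linarith
        have h2 : 1 + ‖q p‖ ≤ 2 * (1 + ‖p‖) := by linarith [hq p]
        calc _ ≤ 48 * ‖h‖ ^ 2 * (1 + ‖p‖) ^ 2 * (48 * ‖k‖ ^ 2 * (1 + ‖p‖) ^ 2) *
              ‖ft (ev f) p‖ ^ 2 * (2 * (1 + ‖p‖)) ^ 4 := by gcongr
          _ = (192 * ‖h‖ * ‖k‖ * ((1 + ‖p‖) ^ 4 * ‖ft (ev f) p‖)) ^ 2 := by ring
          _ ≤ (192 * ‖h‖ * ‖k‖ * (A * sn m f)) ^ 2 := by gcongr (_ * ?_) ^ 2; exact hA f p
          _ = K := by simp only [K]; ring
      · rw [Set.indicator_of_notMem (show p ∉ {p | l p < σ} from e), zero_mul]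
        exact mul_nonneg (by positivity) (Set.indicator_nonneg (fun _ _ => zero_le_one) _)
  have e : (fun p => ENNReal.ofReal ({p | l p < σ}.indicator (1 : V → ℝ) p)) =
      {p | l p < σ}.indicator 1 := funext fun p => by by_cases e : l p < σ <;> simp [e]
  rw [e, lintegral_indicator_one hS, c.bt.nu_apply hS,
    i2 (fun y => K * ((1 + ‖y‖) ^ 4)⁻¹) ((Set.Ioo 0 σ).indicator 1), integral_const_mul,
    integral_indicator_one measurableSet_Ioo, Real.volume_real_Ioo_of_le hσ.le,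
    ENNReal.ofReal_le_ofReal_iff (by rw [sub_zero]; positivity)] at this
  refine abs_le_of_sq_le_sq' (this.trans_eq ?_) (by positivity) |>.2
  simp only [mul_pow, Real.sq_sqrt hσ.le, Real.sq_sqrt (mul_nonneg C0 W0), K]
  ring

end Low

theorem low_rowZ {D : Type*} [NormedAddCommGroup D] [InnerProductSpace ℂ D] [GrD D] (c : CtxZ D) :
    T3Z c → LOWZ c := fun t => by
  have n (p : V) : ‖tx p‖ ≤ 2 * ‖p‖ := by linarith [norm_tx_le p, norm_nonneg p]
  obtain ⟨m1, C1, a1, b1⟩ := Low.stripZ t.two (q := pm) meas_al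
    (fun p => max_le (abs_be_le p) (n p)) (fun p hp => ((mem_Fc' p).1 hp).1)
    (fun _ _ => integrable_pm_al) integral_pm_al
  obtain ⟨m2, C2, a2, b2⟩ := Low.stripZ t.two (q := pl) meas_be
    (fun p => max_le ((abs_al_le p).trans (by linarith [norm_nonneg p])) (n p))
    (fun p hp => ((mem_Fc p).1 hp).1) (fun _ _ => integrable_pl_be) integral_pl_be
  have mono (m m' : ℕ) (h : m ≤ m') (f : Sch) : sn m f ≤ sn m' f :=
    Seminorm.le_def.1 (Finset.sup_mono (Finset.Iic_subset_Iic.2 (Prod.mk_le_mk.2 ⟨h, h⟩))) f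
  refine ⟨max m1 m2, C1 + C2, by positivity, fun h k f σ hσ => ⟨(b1 h k f σ hσ).trans ?_,
    (b2 h k f σ hσ).trans ?_⟩⟩
  · have : 0 ≤ sn m1 f := apply_nonneg _ _
    gcongr
    exacts [le_add_of_nonneg_right a2, mono _ _ (le_max_left _ _) f]
  · have : 0 ≤ sn m2 f := apply_nonneg _ _
    gcongr
    exacts [le_add_of_nonneg_left a1, mono _ _ (le_max_right _ _) f]

end

end Vale.Agent.P352X.BX
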