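import Vale.Agent.P352Z.P352X.R.BB.Base

open Vale.Agent.P352G

/-!
# P352X, row BB.main: the main terms
-/

set_option linter.all false

open MeasureTheory Filter Topology Set
open scoped SchwartzMap ComplexConjugate ENNReal ContDiff

namespace Vale.Agent.P352X.BX

open Vale.Agent.P352 Vale.Agent.P352.GF Vale.Agent.P352.BW Vale.Agent.P352.H246
open Vale.Agent.P352.H496 Vale.Agent.P352.H755 Vale.Agent.P352.H15 Vale.Agent.P352X.Ap
open UniformSpace (Completion)
open Complex (I)

noncomputable section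

variable {D : Type*} [NormedAddCommGroup D] [InnerProductSpace ℂ D] [GrD D]

theorem main_rowZ (c : CtxZ D) : T3Z c → KSZ c → MAINZ c := by
  intro T ks d R χ ρ w hd hdR hχ hρ η hη
  have G := T.grp
  have kd := T.kd
  have hR : 0 < R := hd.trans_le hdR
  have g0 := tst_face0 hR
  set F : ℕ → Completion D := fun n =>
    RbZ c ρ (gen c.SK (TxZ c vb (k3 (deriv kk) (kp R)) (edge R (ep n)))) with hF
  have dm := fun n => dm_TxZ kd g0 (tst_edge hR (ep_pos n)) (tsupport_edge hR (ep_pos n)) vb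
  obtain ⟨C, hC⟩ := ks.face ρ _ _ hρ g0 tst_ph0 tsupport_ph0
  have t0 : Tendsto (fun n : ℕ => 2 * C * (1 / 2 : ℝ) ^ n * ‖w‖) atTop (𝓝 0) := by
    simpa using ((tendsto_half.mono_right nhdsWithin_le_nhds).const_mul (2 * C)).mul_const ‖w‖
  obtain ⟨m, m1, m2⟩ := (((tendsto_ep.mono_right nhdsWithin_le_nhds).eventually
    (ge_mem_nhds hR)).and (t0.eventually (ge_mem_nhds (show 0 < η / 3 by positivity)))).exists
  have st : ∀ j, m ≤ j → ‖F (j + 1) - F j‖ ≤ C * (1 / 2) ^ j := fun j hj => by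
    have p := tst_dil tst_ph0 (ep_pos j).ne'
    have e : edge R (ep (j + 1)) = fun t => edge R (ep j) t + dil (ep j) ph0 t :=
      funext (edge_succ hR ((ep_anti hj).trans m1))
    simp only [hF]
    rw [e, Tx_add_pZ g0 (tst_edge hR (ep_pos j)) p, gen_add (dm j)
      (dm_TxZ kd g0 p (tsupport_dil_neg tsupport_ph0 (ep_pos j)) vb), Rb_addZ G hρ,
      add_sub_cancel_left]
    exact hC _ (half_mem j)
  have wn := (Far.wnZ G T.bas (perp_RbZ G hρ (perp_KZ (dm m))) w).norm
  rw [norm_zero] at wn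
  filter_upwards [wn.eventually (ge_mem_nhds (show 0 < η / 3 by positivity)),
    eventually_gt_atTop 0] with L h1 hL
  have sl := tst_slab hχ hR hL
  have t1 := (ks.slab ρ _ _ hρ sl tst_dps tsupport_dps_neg).comp tendsto_half
  have t2 := (((t1.neg.inner (𝕜 := ℂ) (tendsto_const_nhds (x := w))).const_mul I).sub_const
    (inner ℂ (TPZ c va va (x2 (da (ap 1 (slab χ R L)))) ρ) w)).norm
  rw [integral_dps, inner_neg_left, inner_smul_left, inner_smul_left] at t2
  simp only [Complex.ofReal_neg, Complex.ofReal_one, map_neg, map_one, Complex.conj_I, neg_mul,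
    one_mul, neg_neg, mul_neg, ← mul_assoc, Complex.I_mul_I, sub_self, norm_zero] at t2
  filter_upwards [t2.eventually (ge_mem_nhds (show 0 < η / 3 by positivity)),
    eventually_ge_atTop m] with n h2 hn
  have d1 := dm_TxZ kd sl (tst_dlt tst_dps (ep_pos n).ne')
    (tsupport_dlt_neg tsupport_dps_neg (ep_pos n)) va
  have u := usc_KZ G hL (dm n)
  have h3 : ‖inner ℂ (Usc c.Q L 1 (F n - F m)) w‖ ≤ η / 3 := by
    refine (norm_inner_le_norm _ _).trans (le_trans ?_ m2)
    rw [usc_normZ G]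
    exact mul_le_mul_of_nonneg_right (dyadic st hn) (norm_nonneg _)
  rw [GGZ, usc_faceZ G hR hL (tst_edge hR (ep_pos n)), gen_sub d1.neg u.1, gen_neg d1, u.2,
    Rb_subZ G hρ, Rb_negZ, Rb_uscZ G hρ hL]
  have e : ∀ a b x y : ℂ, I * (a - x) - b = (I * a - b) - I * y - I * (x - y) := by
    intros
    ring
  rw [map_sub, inner_sub_left] at h3
  rw [inner_sub_left, e _ _ _ (inner ℂ (Usc c.Q L 1 (F m)) w)]
  refine (norm_sub_le _ _).trans ((add_le_add (norm_sub_le _ _) le_rfl).trans ?_)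
  rw [norm_mul, norm_mul, Complex.norm_I, one_mul, one_mul]
  have h2' : ‖I * inner ℂ (-RbZ c ρ (gen c.SK (TxZ c va (slab χ R L) (dlt (ep n) (deriv ps))))) w -
    inner ℂ (TPZ c va va (x2 (da (ap 1 (slab χ R L)))) ρ) w‖ ≤ η / 3 := h2
  linarith

end

end Vale.Agent.P352X.BX
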