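import Vale.Agent.P352X.R.BB.Rate
import Vale.Agent.P352Z.P352X.Api1C
import Vale.Agent.P352Z.P352X.R.BAS
import Vale.Agent.P352Z.P352X.R.BB.Spec
import Vale.Agent.P352Z.P352X.R.KD.D

open Vale.Agent.P352G

/-!
# P352X, row BB.rate: small `p_b` for `K T(f) Ω`
-/

set_option linter.all false

open MeasureTheory Filter Topology

namespace Vale.Agent.P352X.BX

open Vale.Agent.P352 Vale.Agent.P352.GF Vale.Agent.P352.BW Vale.Agent.P352.H246
open Vale.Agent.P352.H496 Vale.Agent.P352.H755 Vale.Agent.P352.H15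
open UniformSpace (Completion)
open Complex (I)
open KDa (dS mS Adm tauZ)

noncomputable section

namespace Rate

section hilbert

variable {H : Type*} [NormedAddCommGroup H] [InnerProductSpace ℂ H] [CompleteSpace H]
  {W G : ℝ → H →L[ℂ] H} {r ξ ζ a b : H}

end hilbert

variable {D : Type*} [NormedAddCommGroup D] [InnerProductSpace ℂ D] [GrD D] {c : CtxZ D}

lemma gn_tauZ (G : GENZ c) (i : Fin 2) (h k : V) (f : Sch) :
    Gn (Mi c.Q i) (tauZ c h k f) (nm i (fun h k f => tauZ c h k f) h k f) := by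
  simp only [nm, KDa.tau_applyZ, ev_MS, muL_apply]
  exact G.mi i h k _ ⟨f, rfl⟩

lemma gn_nmZ (i : Fin 2) {Φ Ψ : V → V → Sch → Completion D}
    (hΦ : ∀ h k f, Gn (Mi c.Q i) (Φ h k f) (Ψ h k f)) (h k : V) (f : Sch) :
    Gn (Mi c.Q i) (nm i Φ h k f) (nm i Ψ h k f) :=
  (((hΦ _ _ _).sub (hΦ _ _ _)).sub (hΦ _ _ _)).smul I

/-- `M_i` and `M_i ^ 2` on `T(h, k)(f) Ω` -/
lemma two_MZ (G : GENZ c) (i : Fin 2) : ∃ (m : ℕ) (C : ℝ), 0 ≤ C ∧ ∀ h k (f : Sch), ∃ a b,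
    Gn (Mi c.Q i) (c.Tv (hk h k (ev f))) a ∧ Gn (Mi c.Q i) a b ∧
      ‖a‖ ≤ C * ‖h‖ * ‖k‖ * sn m f ∧ ‖b‖ ≤ C * ‖h‖ * ‖k‖ * sn m f := by
  obtain ⟨m, C, h0, hC⟩ := (adm_nm i (KDa.adm_tauZ c)).addn (adm_nm i (adm_nm i (KDa.adm_tauZ c)))
  refine ⟨m, C, h0, fun h k f => ⟨_, _, (gn_tauZ G i h k f).cast (KDa.tau_applyZ h k f).symm rfl,
    gn_nmZ i (gn_tauZ G i) h k f, ?_⟩⟩
  have := (le_abs_self _).trans (hC h k f)
  rw [sn_eq]
  exact ⟨(le_add_of_nonneg_right (norm_nonneg _)).trans this,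
    (le_add_of_nonneg_left (norm_nonneg _)).trans this⟩

/-- the functions of `P` commute with `K` -/
lemma P_KZ (c : CtxZ D) {A : Set ℝ} (hA : MeasurableSet A) (t : ℝ) :
    c.bt.P (be ⁻¹' A) * c.SK t = c.SK t * c.bt.P (be ⁻¹' A) := by
  have e : ∀ v, c.bt.P (be ⁻¹' A) v = c.kc.Phi (fun q => A.indicator (fun _ => (1 : ℂ)) q.2.2) v :=
    fun v => ((Kin.common_P c.kc c.hS.toGrp0 null_va c.ct).1 _ (SN.Bd.ind hA) v).symm
  ext v
  rw [ContinuousLinearMap.mul_apply, ContinuousLinearMap.mul_apply, e, e, c.SK_Phi, c.SK_Phi]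
  exact c.kc.comm ((SN.Bd.ind hA).comp (by fun_prop)) (SN.Bd.expI (by fun_prop)) v

/-- the pigeonhole bound -/
lemma pigZ (c : CtxZ D) {ξ : Completion D} {Λ t : ℝ} (h0 : 0 < t) (h1 : t ≤ 1)
    (h : ∀ s, ‖Mi c.Q 0 s ξ - ξ‖ ≤ Λ * |s|) :
    ‖c.bt.P {p | al p ≤ t ^ 20 ∧ t ^ 4 ≤ be p} ξ‖ ≤ ‖ξ‖ * t + 8 * Λ * t := by
  have hΛ : 0 ≤ Λ := by simpa using (norm_nonneg _).trans (h 1)
  have hN : 0 < ⌈t⁻¹ ^ 2⌉₊ := Nat.ceil_pos.2 (by positivity)
  have hN2 : (⌈t⁻¹ ^ 2⌉₊ : ℝ) ≤ 2 * t⁻¹ ^ 2 := by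
    linarith [Nat.ceil_lt_add_one (sq_nonneg t⁻¹), one_le_pow₀ (n := 2) ((one_le_inv₀ h0).2 h1)]
  refine (Kin.pigZ c.bR c.ct null_vb null_va al_va (al_ex 0) (be_ex 0) (by simp [md_ex, -tx_0])
    (ρ := t ^ 20) (lam := t ^ 4) (σ := 2 * t ^ 8) (Λ := 2 * Λ) (by positivity) (by positivity)
    (by linarith [pow_pos h0 20]) (w := ξ) (fun s hs => ?_) hN).trans (add_le_add ?_ ?_)
  · rw [← nrt_eq]
    refine (h _).trans_eq ?_
    rw [abs_of_nonneg (by positivity)]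
    ring
  · rw [← inv_inv t, ← div_eq_mul_inv, inv_inv]
    exact div_le_div_of_nonneg_left (norm_nonneg _) (inv_pos.2 h0)
      (Real.le_sqrt_of_sq_le (Nat.le_ceil _))
  · calc _ ≤ 2 * Λ * (2 * t⁻¹ ^ 2 * (2 * t ^ 8)) := by gcongr
      _ = 8 * Λ * t ^ 6 := by field_simp; ring
      _ ≤ _ := mul_le_mul_of_nonneg_left (pow_le_of_le_one h0.le h1 (by norm_num)) (by positivity)

end Rate

open Rate

variable {D : Type*} [NormedAddCommGroup D] [InnerProductSpace ℂ D] [GrD D]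

theorem rate_rowZ (c : CtxZ D) (T : T3Z c) (low : LOWZ c) : RATEZ c := fun b1 b2 hb => by
  have g := T.grp
  obtain ⟨m1, C1, k1⟩ := T.kd.slab b1 b2 (.inl hb)
  obtain ⟨m2, C2, p2, k2⟩ := low
  obtain ⟨m3, C3, p3, k3⟩ := two_MZ T.gen 0
  refine ⟨m1 + m2 + m3, 10 * (|C1| + C2 + C3), by positivity, fun h k f t hf h0 h1 => ?_⟩
  obtain ⟨d1, d2, n1, n2⟩ := k1 h k f hf
  obtain ⟨a, b, ha, hb, -, n3⟩ := k3 h k f
  have n4 := (k2 h k f (t ^ 4) (by positivity)).2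
  rw [show t ^ 4 = (t ^ 2) ^ 2 by ring, Real.sqrt_sq (by positivity), ← pow_mul] at n4
  set n := (|C1| + C2 + C3) * (‖h‖ * ‖k‖ * sn (m1 + m2 + m3) f) with hn
  have up : ∀ {m C}, m ≤ m1 + m2 + m3 → C ≤ |C1| + C2 + C3 → C * ‖h‖ * ‖k‖ * sn m f ≤ n :=
    fun hm hC => by
      rw [mul_assoc, mul_assoc, ← mul_assoc ‖h‖]
      exact mul_le_mul hC (mul_le_mul_of_nonneg_left (Lie.sn_mono hm f) (by positivity))
        (mul_nonneg (by positivity) (Lie.sn_nonneg _ _)) (by positivity)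
  have q1 : C1 ≤ |C1| + C2 + C3 := by linarith [le_abs_self C1]
  replace n1 := n1.trans (up (by omega) q1)
  replace n2 := n2.trans (up (by omega) q1)
  replace n3 := n3.trans (up (by omega) (by linarith [abs_nonneg C1]))
  replace n4 : _ ≤ t ^ 2 * n := n4.trans ((le_of_eq (by ring)).trans (mul_le_mul_of_nonneg_left
    (up (m := m2) (C := C2) (by omega) (by linarith [abs_nonneg C1])) (sq_nonneg t)))
  have n0 : 0 ≤ n := (norm_nonneg _).trans n1
  have hA : MeasurableSet {p | be p < t ^ 4} := measurableSet_lt meas_be measurable_const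
  have hB : MeasurableSet {p | al p ≤ t ^ 20 ∧ t ^ 4 ≤ be p} :=
    (measurableSet_le meas_al measurable_const).inter (measurableSet_le measurable_const meas_be)
  have sa : star (c.bt.P {p | be p < t ^ 4}) = c.bt.P {p | be p < t ^ 4} :=
    ContinuousLinearMap.ext fun v => ext_inner_right ℂ fun w => by
      rw [star_inner, SN.Calc.P_adj hA]
  have a1 := sq_le c.ugK d1.gn d2.gn (A := c.bt.P {p | be p < t ^ 4}) fun s => by
    have := P_KZ c (measurableSet_Iio (a := t ^ 4)) s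
    rw [sa, mul_assoc]
    exact (congrArg _ this).trans (by rw [← mul_assoc, ← mul_assoc]; exact congrArg (· * _) this)
  rw [sa, SN.Calc.P_P hA hA, Set.inter_self] at a1
  have a2 := abs_le_of_sq_le_sq' (b := t * n) (a1.trans ((mul_le_mul n2 n4 (norm_nonneg _) n0).trans_eq
    (by ring))) (by positivity)
  have a3 := pigZ c h0 h1 (Λ := n) fun s => (abs_le_of_sq_le_sq' ((lip_le c.ugK (g.ugM 0)
    (fun _ _ => g.ga_S _ _) d1.gn d2.gn ha hb s).trans ((mul_le_mul n2 (mul_le_mul_of_nonneg_right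
      (mul_le_mul_of_nonneg_right n3 (abs_nonneg s)) (abs_nonneg s)) (by positivity) n0).trans_eq
        (by ring))) (by positivity)).2
  refine (SN.Calc.norm_P_mono (measurableSet_lt meas_al measurable_const) (hA.union hB)
    (.of_forall fun p hp => (lt_or_ge (be p) (t ^ 4)).imp id fun q => ⟨le_of_lt hp, q⟩)).trans
    ((Br.norm_P_union _ hA hB _).trans ?_)
  have a4 := mul_le_mul_of_nonneg_right n1 h0.le
  calc _ ≤ 10 * (t * n) := by linarith [a2.2]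
    _ = _ := by rw [hn]; ring

end

end Vale.Agent.P352X.BX
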