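import Vale.Agent.P352X.R.BB.Dom
import Vale.Agent.P352Z.P352X.Api1C
import Vale.Agent.P352Z.P352X.R.BB.Spec

open Vale.Agent.P352G

/-!
# P352X, row BB.dom: domains, uniformly under small translations along `b`
-/

set_option linter.all false

open MeasureTheory Filter Topology
open scoped SchwartzMap ComplexConjugate ENNReal ContDiff

namespace Vale.Agent.P352X.BX

open Vale.Agent.P352 Vale.Agent.P352.GF Vale.Agent.P352.BW Vale.Agent.P352.H246
open Vale.Agent.P352.H496 Vale.Agent.P352.H755 Vale.Agent.P352.H15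
open UniformSpace (Completion)
open Complex (I)

noncomputable section

namespace Dom

/-! ### geometry -/

/-! ### smooth families of vectors -/

section abstr

variable {H : Type*} [NormedAddCommGroup H] [InnerProductSpace ℂ H] [CompleteSpace H]
  {P : Type*} [NormedAddCommGroup P] [NormedSpace ℝ P] {W : ℝ → H →L[ℂ] H} {ψ : P → H}

variable {B T : ℝ → H →L[ℂ] H} {v : H} (h : Sv B T v)
include h

end abstr

variable {D : Type*} [NormedAddCommGroup D] [InnerProductSpace ℂ D] [GrD D] {c : CtxZ D}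

lemma pb_vacZ (g : GRPZ c) (t : ℝ) : Pb c.Q t c.Om = c.Om := g.vac _ _ _

lemma bo_vacZ (g : GRPZ c) (t : ℝ) : Bo c.Q t c.Om = c.Om := g.vac _ _ _

lemma sm_starZ (g : GRPZ c) {X} (h : SmZ c X) : SmZ c (star X) := by
  have := (starL' ℝ : (Completion D →L[ℂ] Completion D) ≃L[ℝ] _).contDiff.comp h
  refine (congrArg (ContDiff ℝ ∞) (funext fun q => ?_)).mp this
  simp only [Function.comp_apply, starL'_apply, star_mul, g.ugB.star_eq, g.ugPb.star_eq, neg_neg,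
    mul_assoc]

lemma sv_ofZ (g : GRPZ c) {X} (h : SmZ c X) : Sv (Bo c.Q) (Pb c.Q) (X c.Om) := by
  have := ((ContinuousLinearMap.apply ℂ (Completion D) c.Om).restrictScalars ℝ).contDiff.comp h
  refine (congrArg (ContDiff ℝ ∞) (funext fun q => ?_)).mp this
  simp only [Function.comp_apply, ContinuousLinearMap.coe_restrictScalars',
    ContinuousLinearMap.apply_apply, ContinuousLinearMap.mul_apply, pb_vacZ g, bo_vacZ g]

lemma pb_boZ (g : GRPZ c) (s t : ℝ) (v : Completion D) :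
    Pb c.Q s (Bo c.Q t v) = Bo c.Q t (Pb c.Q (Real.exp t * s) v) := by
  have := DFunLike.congr_fun (g.bo_pb t (Real.exp t * s)) v
  rw [← mul_assoc, ← Real.exp_add, neg_one_mul, neg_add_cancel, Real.exp_zero, one_mul] at this
  exact this.symm

lemma nice_ofZ (g : GRPZ c) {X} (h : SmZ c X) :
    Nice (Bo c.Q) (Pb c.Q) fun u => Pb c.Q (-u) (X c.Om) :=
  nice (sv_ofZ g h) g.ugB g.ugPb (pb_boZ g)

variable {φ φ' : ℝ → Completion D} {r : ℝ} {S : Set ℝ}

lemma regZ (t : T3Z c) (hr : 0 < r) (n : Nice (Bo c.Q) (Pb c.Q) φ)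
    (n' : Nice (Bo c.Q) (Pb c.Q) φ') {u : ℝ}
    (p : Pr (c.N (Rc r 0)) c.Om (φ u) (φ' u)) : RegZ c (φ u) := by
  obtain ⟨C, hC⟩ := t.kd.a r hr
  have k := (t.kd.a2 r 0 _ _ le_rfl hr p (n.db u) (n'.db u)).2 (n.dbb u)
  exact ⟨n.db u, (hC _ _ p (n.db u)).1, k.1, k.2⟩

lemma contOnZ (t : T3Z c) (hr : 0 < r) (n : Nice (Bo c.Q) (Pb c.Q) φ)
    (n' : Nice (Bo c.Q) (Pb c.Q) φ')
    (p : ∀ u ∈ S, Pr (c.N (Rc r 0)) c.Om (φ u) (φ' u)) :
    ContinuousOn (fun u => gen c.SK (φ u)) S := fun v hv => by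
  obtain ⟨C, hC⟩ := t.kd.a r hr
  have h0 : Continuous fun u => C * (‖φ u - φ v‖ + ‖φ' u - φ' v‖ +
      ‖gen (Bo c.Q) (φ u) - gen (Bo c.Q) (φ v)‖) :=
    continuous_const.mul (((n.c0.sub continuous_const).norm.add
      (n'.c0.sub continuous_const).norm).add (n.cb.sub continuous_const).norm)
  have h1 := (h0.tendsto v).mono_left (nhdsWithin_le_nhds (s := S))
  simp only [sub_self, norm_zero, add_zero, mul_zero] at h1
  refine tendsto_iff_norm_sub_tendsto_zero.2 (squeeze_zero' (.of_forall fun _ => norm_nonneg _)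
    (eventually_mem_nhdsWithin.mono fun u hu => ?_) h1)
  have := (hC _ _ ((p u hu).sub (p v hv)) ((n.db u).sub (n.db v))).2
  rwa [gen_sub (hC _ _ (p u hu) (n.db u)).1 (hC _ _ (p v hv) (n.db v)).1,
    gen_sub (n.db u) (n.db v)] at this

lemma boundZ (t : T3Z c) (hr : 0 < r) (n : Nice (Bo c.Q) (Pb c.Q) φ)
    (n' : Nice (Bo c.Q) (Pb c.Q) φ') (hS : IsCompact S)
    (p : ∀ u ∈ S, Pr (c.N (Rc r 0)) c.Om (φ u) (φ' u)) :
    ∃ N, ∀ u ∈ S, QbZ c (gen c.SK (φ u)) N := by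
  obtain ⟨C, hC⟩ := t.a2.abs r hr
  obtain ⟨N1, h1⟩ := hS.exists_bound_of_continuousOn (contOnZ t hr n n' p)
  have h0 : Continuous fun u => C * (‖φ u‖ + ‖φ' u‖ + ‖gen (Pb c.Q) (φ u)‖ +
      ‖gen (Pb c.Q) (φ' u)‖ + ‖gen (Bo c.Q) (φ u)‖ + ‖gen (Bo c.Q) (φ' u)‖ +
      ‖gen (Pb c.Q) (gen (Bo c.Q) (φ u))‖ + ‖gen (Bo c.Q) (gen (Bo c.Q) (φ u))‖) ^ 2 :=
    continuous_const.mul ((((((((n.c0.norm.add n'.c0.norm).add n.cp.norm).add n'.cp.norm).add
      n.cb.norm).add n'.cb.norm).add n.cpb.norm).add n.cbb.norm).pow 2)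
  obtain ⟨N2, h2⟩ := hS.exists_bound_of_continuousOn h0.continuousOn
  refine ⟨|N1| + |N2| + 1, fun u hu => ⟨(h1 u hu).trans ?_, (hC _ _ (p u hu) (n.dp u) (n'.dp u)
    (n.db u) (n'.db u) (n.dpb u) (n.dbb u)).trans (ENNReal.ofReal_le_ofReal
      ((le_abs_self _).trans ((h2 u hu).trans ?_)))⟩⟩
  · linarith [le_abs_self N1, abs_nonneg N2]
  · nlinarith [le_abs_self N2, abs_nonneg N2, abs_nonneg N1]

end Dom

variable {D : Type*} [NormedAddCommGroup D] [InnerProductSpace ℂ D] [GrD D]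

open Dom in
theorem dom_rowZ (c : CtxZ D) : T3Z c → DOMZ c := fun t u0 u1 d0 d1 y r X hu h1 hd _ hs hX sX => by
  have g := t.grp
  obtain ⟨r', hr, hc⟩ := ex_cone hu h1 hd hs
  have n := nice_ofZ g sX
  have n' := nice_ofZ g (sm_starZ g sX)
  have p : ∀ u ∈ Set.Icc (-u1) u1,
      Pr (c.N (Rc r' 0)) c.Om (Pb c.Q (-u) (X c.Om)) (Pb c.Q (-u) (star X c.Om)) := fun u hu =>
    g.pr_ut (Pr.of_mem hX) _ fun z hz => (hc u hu z hz).1
  obtain ⟨N, hN⟩ := boundZ t hr n n' isCompact_Icc p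
  refine ⟨r', N, hr, fun u hu => ⟨?_, regZ t hr n n' (p u hu), hN u hu⟩, contOnZ t hr n n' p⟩
  have := g.mem_ut hX ((-u) • vb) fun z hz => (hc u hu z hz).2
  rwa [← neg_smul, neg_neg] at this

end

end Vale.Agent.P352X.BX
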